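import Vale.Agent.P280.H644.Ind

/-! P280, row R5: Theorem I, from the data at the source. -/

open DirectSum MvPolynomial
open Vale.Agent.P280.T

namespace Vale.Agent.P280.H644

variable {R : Type} [CommRing R] [Algebra ℂ R] {𝒜 : ℕ × ℤ → Submodule ℂ R} [GradedAlgebra 𝒜]

/-- All weights at `x` (of slope `ν`) are at most `a`. -/
def LE (𝒜 : ℕ × ℤ → Submodule ℂ R) (a : ℤ) (x : R →ₐ[ℂ] ℂ) (ν : ℤ) : Prop :=
  ∀ w, a < w → ∀ v : R →ₗ[ℂ] ℂ, IsTangent x v → HasWeight 𝒜 ν w v → v = 0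

/-- Tangent vectors of weight `a` at `x` (of slope `ν`) are values of vector fields. -/
def EXT (𝒜 : ℕ × ℤ → Submodule ℂ R) (a : ℤ) (x : R →ₐ[ℂ] ℂ) (ν : ℤ) : Prop :=
  ∀ v : R →ₗ[ℂ] ℂ, IsTangent x v → HasWeight 𝒜 ν a v →
    ∃ D : Derivation ℂ R R, (∀ (d : ℕ) (m : ℤ), ∀ h ∈ 𝒜 (d, m), D h ∈ 𝒜 (d, m - a)) ∧
      ∀ h, x (D h) = v h

theorem good_iff {a : ℤ} {x : R →ₐ[ℂ] ℂ} {ν : ℤ} :
    Good 𝒜 dg wg x ν a ↔ LE 𝒜 a x ν ∧ EXT 𝒜 a x ν := by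
  constructor
  · intro h
    refine ⟨fun w hw v hv hvw => h.le w hw v hv (hasWt_iff.2 hvw), fun v hv hvw => ?_⟩
    obtain ⟨D, hD, hD'⟩ := h.ext v hv (hasWt_iff.2 hvw)
    refine ⟨D, fun d m f hf => ?_, hD'⟩
    have := hD (d, m) f hf
    rwa [Pc_eq] at this
  · rintro ⟨h1, h2⟩
    refine ⟨fun w hw v hv hvw => h1 w hw v hv (hasWt_iff.1 hvw), fun v hv hvw => ?_⟩
    obtain ⟨D, hD, hD'⟩ := h2 v hv (hasWt_iff.1 hvw)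
    refine ⟨D, fun i f hf => ?_, hD'⟩
    rw [Pc_eq]
    exact hD i.1 i.2 f hf

/-- The bound at the highest limit. -/
theorem LE_step (hN : NefOnRationalCurves 𝒜) {a : ℤ} (z : R →ₐ[ℂ] ℂ) (ν' ν : ℤ) (h0 : ν' ≤ ν)
    (hα : Supp 𝒜 z (rel ν')) (hβ : Supp 𝒜 z (-rel ν))
    (h1 : ∃ i, 0 < dg i ∧ rel ν' i = 0 ∧ ∃ h ∈ 𝒜 i, z h ≠ 0)
    (h2 : ∃ i, 0 < dg i ∧ rel ν i = 0 ∧ ∃ h ∈ 𝒜 i, z h ≠ 0)
    (hy : LE 𝒜 a (lim 𝒜 hα) ν') : LE 𝒜 a (lim 𝒜 hβ) ν := by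
  intro w haw v hv hvw
  obtain ⟨c, hc, hcw, hcv⟩ := exists_lift 𝒜 (freeCurves hN) h0 hα hβ h1 h2 hv (hasWt_iff.2 hvw)
  have hc0 := eq_zero_of_lead 𝒜 hα (a := a)
    (fun w hw v hv hvw => hy w hw v hv (hasWt_iff.1 hvw)) hc haw hcw
  apply ext_hom (𝒜 := 𝒜)
  intro i h hh
  by_contra hne
  apply hne
  rw [← hcv i h hh ((hasWt_iff.2 hvw) i h hh (by simpa using hne)), hc0]

/-- Data at the source. -/
structure SourceData (𝒜 : ℕ × ℤ → Submodule ℂ R) (μ : ℤ) (f : R) : Prop where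
  mem : f ∈ 𝒜 (1, μ)
  ne : f ≠ 0
  low : ∀ (d : ℕ) (m : ℤ), ∀ h ∈ 𝒜 (d, m), h ≠ 0 → d • μ ≤ m
  span : ∀ d : ℕ, ∀ h ∈ 𝒜 (d, d • μ), ∃ c : ℂ, h = c • f ^ d

theorem SourceData.apply_ne {μ : ℤ} {f : R} (hs : SourceData 𝒜 μ f) {x : R →ₐ[ℂ] ℂ}
    (hx : ¬ IsVertex 𝒜 x) (hx' : IsFixed 𝒜 x μ) : x f ≠ 0 := by
  intro h0
  apply hx
  intro d m hd h hh
  by_contra hne
  have hm := hx' d m h hh hne
  subst hm
  obtain ⟨c, hc⟩ := hs.span d h hh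
  apply hne
  rw [hc, map_smul, map_pow, h0, zero_pow hd.ne', smul_zero]

/-- Two non-vertices of slope `μ` lie over the same point. -/
theorem SourceData.same {μ : ℤ} {f : R} (hs : SourceData 𝒜 μ f) {p x : R →ₐ[ℂ] ℂ}
    (hp : ¬ IsVertex 𝒜 p) (hp' : IsFixed 𝒜 p μ) (hx : ¬ IsVertex 𝒜 x) (hx' : IsFixed 𝒜 x μ) :
    SamePoint 𝒜 p x := by
  have hpf := hs.apply_ne hp hp'
  have hxf := hs.apply_ne hx hx'
  refine ⟨x f / p f, div_ne_zero hxf hpf, fun d m h hh => ?_⟩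
  by_cases hm : m = d • μ
  · subst hm
    obtain ⟨c, hc⟩ := hs.span d h hh
    rw [hc, map_smul, map_smul, map_pow, map_pow, div_pow]
    simp only [smul_eq_mul]
    field_simp
  · have h1 : x h = 0 := by
      by_contra hne
      exact hm (hx' d m h hh hne)
    have h2 : p h = 0 := by
      by_contra hne
      exact hm (hp' d m h hh hne)
    rw [h1, h2, mul_zero]

/-- Transport of a tangent vector along the scaling by `c`. -/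
theorem exists_transport {p x : R →ₐ[ℂ] ℂ} {c : ℂ} (hc : c ≠ 0)
    (h : ∀ (d : ℕ) (m : ℤ), ∀ h ∈ 𝒜 (d, m), x h = c ^ d * p h) {v : R →ₗ[ℂ] ℂ}
    (hv : IsTangent x v) :
    ∃ v' : R →ₗ[ℂ] ℂ, IsTangent p v' ∧
      ∀ (d : ℕ) (m : ℤ), ∀ h ∈ 𝒜 (d, m), v h = c ^ d * v' h := by
  have hval : ∀ (d : ℕ) (m : ℤ), ∀ h ∈ 𝒜 (d, m),
      v h = c ^ d * (tw 𝒜 fun i => (c⁻¹ ^ i.1) • v) h := by
    intro d m h hh
    rw [tw_mem 𝒜 _ hh, LinearMap.smul_apply, smul_eq_mul, ← mul_assoc, ← mul_pow,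
      mul_inv_cancel₀ hc, one_pow, one_mul]
  refine ⟨tw 𝒜 fun i => (c⁻¹ ^ i.1) • v, ?_, hval⟩
  refine isDer_of_hom (𝒜 := 𝒜) fun i j f hf g hg => ?_
  have hcd : c ^ (i.1 + j.1) ≠ 0 := pow_ne_zero _ hc
  apply mul_left_cancel₀ hcd
  have h1 := hval (i.1 + j.1) (i.2 + j.2) (f * g) (SetLike.mul_mem_graded hf hg)
  rw [← h1, hv f g, h i.1 i.2 f hf, h j.1 j.2 g hg, hval i.1 i.2 f hf, hval j.1 j.2 g hg, pow_add]
  ring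

/-- The bound at all fixed points. -/
theorem LE_all (hX : IsTorusManifold 𝒜) (hN : NefOnRationalCurves 𝒜) {μ a : ℤ} {f : R}
    (hs : SourceData 𝒜 μ f) {p : R →ₐ[ℂ] ℂ} (hp : ¬ IsVertex 𝒜 p) (hp' : IsFixed 𝒜 p μ)
    (hle : LE 𝒜 a p μ) {x : R →ₐ[ℂ] ℂ} {ν : ℤ} (hx : ¬ IsVertex 𝒜 x) (hx' : IsFixed 𝒜 x ν) :
    LE 𝒜 a x ν := by
  refine slope_ind hX hs.mem hs.ne hs.low (P := LE 𝒜 a) ?_ (LE_step hN) x ν hx hx'
  intro x hx hx' w haw v hv hvw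
  obtain ⟨c, hc, hcx⟩ := hs.same hp hp' hx hx'
  obtain ⟨v', hv', hvv'⟩ := exists_transport hc hcx hv
  have h0 := hle w haw v' hv' (by
    intro d m h hh hne
    apply hvw d m h hh
    rw [hvv' d m h hh]
    exact mul_ne_zero (pow_ne_zero _ hc) hne)
  apply ext_hom (𝒜 := 𝒜)
  intro i h hh
  rw [hvv' i.1 i.2 h hh, h0]
  simp

/-- Vector fields at all fixed points. -/
theorem EXT_all (hX : IsTorusManifold 𝒜) (hN : NefOnRationalCurves 𝒜) {μ a : ℤ} {f : R}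
    (hs : SourceData 𝒜 μ f) {p : R →ₐ[ℂ] ℂ} (hp : ¬ IsVertex 𝒜 p) (hp' : IsFixed 𝒜 p μ)
    (hle : LE 𝒜 a p μ) (hext : EXT 𝒜 a p μ) {x : R →ₐ[ℂ] ℂ} {ν : ℤ} (hx : ¬ IsVertex 𝒜 x)
    (hx' : IsFixed 𝒜 x ν) : EXT 𝒜 a x ν := by
  refine (good_iff.1 (slope_ind hX hs.mem hs.ne hs.low
    (P := fun x ν => Good 𝒜 dg wg x ν a) ?_ ?_ x ν hx hx')).2
  · intro x hx hx'
    refine good_iff.2 ⟨LE_all hX hN hs hp hp' hle hx hx', ?_⟩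
    intro v hv hvw
    obtain ⟨c, hc, hcx⟩ := hs.same hp hp' hx hx'
    obtain ⟨v', hv', hvv'⟩ := exists_transport hc hcx hv
    obtain ⟨D, hD, hDv⟩ := hext v' hv' (by
      intro d m h hh hne
      apply hvw d m h hh
      rw [hvv' d m h hh]
      exact mul_ne_zero (pow_ne_zero _ hc) hne)
    refine ⟨D, hD, fun h => ?_⟩
    have := ext_hom (𝒜 := 𝒜) (f := x.toLinearMap.comp (D : R →ₗ[ℂ] R)) (g := v) ?_
    · exact LinearMap.congr_fun this h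
    intro i h hh
    simp only [LinearMap.comp_apply, AlgHom.toLinearMap_apply, Derivation.coeFn_coe]
    rw [hcx i.1 (i.2 - a) (D h) (hD i.1 i.2 h hh), hDv h, hvv' i.1 i.2 h hh]
  · intro z ν' ν h0 hα hβ h1 h2 hy
    exact good_step 𝒜 (freeCurves hN) h0 hα hβ h1 h2 hy

theorem LE_of_tangentWeight {a : ℤ} {x : R →ₐ[ℂ] ℂ} {ν : ℤ} (ha : 0 < a) (hx' : IsFixed 𝒜 x ν)
    (h : ∀ χ, TangentWeight 𝒜 x ν χ → χ ≤ a) : LE 𝒜 a x ν := by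
  intro w haw v hv hvw
  by_contra hne
  have hex : ∃ i, ∃ h ∈ 𝒜 i, v h ≠ 0 := by
    by_contra hcon
    apply hne
    apply ext_hom (𝒜 := 𝒜)
    intro i h hh
    by_contra h1
    exact hcon ⟨i, h, hh, by simpa using h1⟩
  obtain ⟨i, g, hg, hvg⟩ := hex
  have := h w ⟨v, hv, hvw, fun c => ⟨i.1, i.2, g, hg, fun heq => ?_⟩⟩
  · omega
  · have h1 := hvw i.1 i.2 g hg hvg
    have h2 : x g = 0 := by
      by_contra h3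
      have := hx' i.1 i.2 g hg h3
      omega
    rw [h2, mul_zero] at heq
    exact hvg heq

theorem tangentWeight_le_of_LE {a : ℤ} {x : R →ₐ[ℂ] ℂ} {ν : ℤ} (h : LE 𝒜 a x ν) {χ : ℤ}
    (hχ : TangentWeight 𝒜 x ν χ) : χ ≤ a := by
  obtain ⟨v, hv, hvw, hne⟩ := hχ
  by_contra hlt
  have h0 := h χ (by omega) v hv hvw
  obtain ⟨d, m, g, hg, hvg⟩ := hne 0
  apply hvg
  rw [h0]
  simp

/-- **Theorem I**, from the data at the source and the extension of its tangent vectors. -/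
theorem theoremI_of (hX : IsTorusManifold 𝒜) (hN : NefOnRationalCurves 𝒜) {μ a : ℤ} (ha : 0 < a)
    {p : R →ₐ[ℂ] ℂ} (hp : IsSource 𝒜 (AddMonoidHom.id ℤ) p μ a) {f : R}
    (hs : SourceData 𝒜 μ f)
    (hR4 : (∀ (x : R →ₐ[ℂ] ℂ) (ν : ℤ), ¬ IsVertex 𝒜 x → IsFixed 𝒜 x ν →
      ∀ χ, TangentWeight 𝒜 x ν χ → χ ≤ a) → EXT 𝒜 a p μ)
    {x : R →ₐ[ℂ] ℂ} {ν : ℤ} (hx : ¬ IsVertex 𝒜 x) (hx' : IsFixed 𝒜 x ν) :
    (∀ χ, TangentWeight 𝒜 x ν χ → χ ≤ a) ∧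
      ∀ v, IsTangent x v → HasWeight 𝒜 ν a v → ∃ D : Derivation ℂ R R,
        (∀ (d : ℕ) (m : ℤ), ∀ h ∈ 𝒜 (d, m), D h ∈ 𝒜 (d, m - a)) ∧ ∀ h, x (D h) = v h := by
  obtain ⟨hp1, hp2, hp3⟩ := hp
  have hle : LE 𝒜 a p μ := LE_of_tangentWeight ha hp2 (fun χ hχ => (hp3 χ hχ).2)
  have hall : ∀ (x : R →ₐ[ℂ] ℂ) (ν : ℤ), ¬ IsVertex 𝒜 x → IsFixed 𝒜 x ν → LE 𝒜 a x ν :=
    fun x ν hx hx' => LE_all hX hN hs hp1 hp2 hle hx hx'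
  exact ⟨fun χ hχ => tangentWeight_le_of_LE (hall x ν hx hx') hχ,
    EXT_all hX hN hs hp1 hp2 hle
      (hR4 fun x ν hx hx' χ hχ => tangentWeight_le_of_LE (hall x ν hx hx') hχ) hx hx'⟩

end Vale.Agent.P280.H644
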