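import Vale.Agent.P280.H644.Div
import Vale.Agent.P280.H939.R3d

/-! P280, row R5: Theorem I from R3 (s3) and R4. -/

open DirectSum
open Vale.Agent.P280.T

namespace Vale.Agent.P280.H644

/-- R3 (s3): tangent vectors of positive weight at the source are values of derivations of
positive degree. -/
def S3 : Prop :=
  ∀ (R : Type) [CommRing R] [Algebra ℂ R] (𝒜 : ℕ × ℤ → Submodule ℂ R) [GradedAlgebra 𝒜],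
    IsTorusManifold 𝒜 → ∀ (p : R →ₐ[ℂ] ℂ) (μ a : ℤ), IsSource 𝒜 (AddMonoidHom.id ℤ) p μ a →
    ∀ (w : ℤ) (v : R →ₗ[ℂ] ℂ), 0 < w → IsTangent p v → HasWeight 𝒜 μ w v →
      ∃ (N : ℕ) (D1 : Derivation ℂ R R),
        (∀ (d : ℕ) (m : ℤ), ∀ h ∈ 𝒜 (d, m), D1 h ∈ 𝒜 (d + N, m + N • μ - w)) ∧
        ∀ h, p (D1 h) = v h

/-- R4: a derivation of bidegree `(N, N μ - a)` is divisible by `f ^ N`. -/
def R4 : Prop :=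
  ∀ (R : Type) [CommRing R] [Algebra ℂ R] (𝒜 : ℕ × ℤ → Submodule ℂ R) [GradedAlgebra 𝒜],
    IsTorusManifold 𝒜 → ∀ (p : R →ₐ[ℂ] ℂ) (μ a : ℤ), 0 < a →
    IsSource 𝒜 (AddMonoidHom.id ℤ) p μ a → ∀ f ∈ 𝒜 (1, μ), f ≠ 0 →
    (∀ (d : ℕ) (m : ℤ), ∀ h ∈ 𝒜 (d, m), h ≠ 0 → d • μ ≤ m) →
    (∀ d : ℕ, ∀ h ∈ 𝒜 (d, d • μ), ∃ c : ℂ, h = c • f ^ d) →
    (∀ (x : R →ₐ[ℂ] ℂ) (ν : ℤ), ¬ IsVertex 𝒜 x → IsFixed 𝒜 x ν →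
      ∀ χ, TangentWeight 𝒜 x ν χ → χ ≤ a) →
    ∀ (N : ℕ) (D1 : Derivation ℂ R R),
      (∀ (d : ℕ) (m : ℤ), ∀ h ∈ 𝒜 (d, m), D1 h ∈ 𝒜 (d + N, m + N • μ - a)) →
      ∀ h, f ^ N ∣ D1 h

/-- **Theorem I** from (s3) and R4. -/
theorem theoremI_of_S3_R4 (h3 : S3) (h4 : R4) (R : Type) [CommRing R] [Algebra ℂ R]
    (𝒜 : ℕ × ℤ → Submodule ℂ R) [GradedAlgebra 𝒜] (hX : IsTorusManifold 𝒜)
    (hN : NefOnRationalCurves 𝒜) (p : R →ₐ[ℂ] ℂ) (μ a : ℤ) (ha : 0 < a)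
    (hp : IsSource 𝒜 (AddMonoidHom.id ℤ) p μ a) (x : R →ₐ[ℂ] ℂ) (ν : ℤ) (hx : ¬ IsVertex 𝒜 x)
    (hx' : IsFixed 𝒜 x ν) : (∀ χ, TangentWeight 𝒜 x ν χ → χ ≤ a) ∧
      ∀ v, IsTangent x v → HasWeight 𝒜 ν a v →
        ∃ D : Derivation ℂ R R, (∀ (d : ℕ) (m : ℤ), ∀ h ∈ 𝒜 (d, m), D h ∈ 𝒜 (d, m - a)) ∧
          ∀ h, x (D h) = v h := by
  obtain ⟨f, hf, hpf⟩ := H939.source_s1 hX hp
  obtain ⟨hlow, hspan⟩ := H939.source_s2 hX hp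
  have hpf' : p f ≠ 0 := by
    rw [hpf]
    exact one_ne_zero
  have hf0 : f ≠ 0 := fun h => hpf' (by rw [h, map_zero])
  have hs : SourceData 𝒜 μ f := ⟨hf, hf0, hlow, hspan f hf hpf'⟩
  exact theoremI_of hX hN ha hp hs
    (fun hall => EXT_of_div hX hf hf0 (fun v hv hvw => h3 R 𝒜 hX p μ a hp a v ha hv hvw)
      (fun N D1 hD1 => h4 R 𝒜 hX p μ a ha hp f hf hf0 hlow (hspan f hf hpf') hall N D1 hD1))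
    hx hx'

end Vale.Agent.P280.H644
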