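import Vale.Agent.P280.H644.ThmI

/-! P280, rows R3 (s3) + R4 to the hypothesis of theoremI: division of a derivation by a power
of the degree one element at the source. -/

open DirectSum
open Vale.Agent.P280.T

namespace Vale.Agent.P280.H644

variable {R : Type} [CommRing R] [Algebra ℂ R]

/-- Division of a derivation by an element. -/
theorem exists_div_derivation [IsDomain R] {g : R} (hg : g ≠ 0) (D : Derivation ℂ R R)
    (h : ∀ x, g ∣ D x) : ∃ E : Derivation ℂ R R, ∀ x, D x = g * E x := by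
  choose q hq using h
  have hadd : ∀ x y, q (x + y) = q x + q y := by
    intro x y
    apply mul_left_cancel₀ hg
    rw [mul_add, ← hq, ← hq, ← hq, map_add]
  have hsmul : ∀ (c : ℂ) (x : R), q (c • x) = c • q x := by
    intro c x
    apply mul_left_cancel₀ hg
    rw [mul_smul_comm, ← hq, ← hq, D.map_smul]
  let L : R →ₗ[ℂ] R :=
    { toFun := q
      map_add' := hadd
      map_smul' := hsmul }
  refine ⟨Derivation.mk' L ?_, fun x => hq x⟩
  intro x y
  apply mul_left_cancel₀ hg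
  have h1 : g * L (x * y) = D (x * y) := (hq (x * y)).symm
  have h2 : g * L x = D x := (hq x).symm
  have h3 : g * L y = D y := (hq y).symm
  rw [h1, D.leibniz, smul_eq_mul, smul_eq_mul, smul_eq_mul, smul_eq_mul, ← h2, ← h3]
  ring

/-- A quotient of homogeneous elements is homogeneous. -/
theorem mem_of_mul_mem_graded {ι : Type} [AddCancelCommMonoid ι] [DecidableEq ι]
    {𝒜 : ι → Submodule ℂ R} [GradedAlgebra 𝒜] [IsDomain R] {i j : ι} {g x : R} (hg : g ≠ 0)
    (hgi : g ∈ 𝒜 i) (h : g * x ∈ 𝒜 (i + j)) : x ∈ 𝒜 j := by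
  classical
  have h1 : ∀ k, k ≠ j → (decompose 𝒜 x k : R) = 0 := by
    intro k hk
    have h2 := DirectSum.coe_decompose_mul_add_of_left_mem 𝒜 (b := x) (j := k) hgi
    rw [DirectSum.decompose_of_mem_ne 𝒜 h (fun h3 => hk (add_left_cancel h3).symm)] at h2
    rcases mul_eq_zero.1 h2.symm with h3 | h3
    · exact absurd h3 hg
    · exact h3
  have h2 : x = (decompose 𝒜 x j : R) := by
    conv_lhs => rw [← DirectSum.sum_support_decompose 𝒜 x]
    apply Finset.sum_eq_single j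
    · intro k _ hk
      exact h1 k hk
    · intro hj
      rw [DFinsupp.notMem_support_iff.1 hj]
      rfl
  rw [h2]
  exact SetLike.coe_mem _

variable {𝒜 : ℕ × ℤ → Submodule ℂ R} [GradedAlgebra 𝒜]

/-- (s3) and divisibility give the extension of the tangent vectors of weight `a` at the source. -/
theorem EXT_of_div (hX : IsTorusManifold 𝒜) {μ a : ℤ} {p : R →ₐ[ℂ] ℂ}
    {f : R} (hf : f ∈ 𝒜 (1, μ)) (hf0 : f ≠ 0)
    (hs3 : ∀ v : R →ₗ[ℂ] ℂ, IsTangent p v → HasWeight 𝒜 μ a v →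
      ∃ (N : ℕ) (D1 : Derivation ℂ R R),
        (∀ (d : ℕ) (m : ℤ), ∀ h ∈ 𝒜 (d, m), D1 h ∈ 𝒜 (d + N, m + N • μ - a)) ∧
        ∀ h, p (D1 h) = v h)
    (hdiv : ∀ (N : ℕ) (D1 : Derivation ℂ R R),
      (∀ (d : ℕ) (m : ℤ), ∀ h ∈ 𝒜 (d, m), D1 h ∈ 𝒜 (d + N, m + N • μ - a)) →
      ∀ h, f ^ N ∣ D1 h) : EXT 𝒜 a p μ := by
  have hdom := hX.domain
  intro v hv hvw
  obtain ⟨N, D1, hD1, hD1v⟩ := hs3 v hv hvw
  obtain ⟨E, hE⟩ := exists_div_derivation (pow_ne_zero N hf0) D1 (hdiv N D1 hD1)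
  refine ⟨((p f) ^ N) • E, fun d m h hh => ?_, fun h => ?_⟩
  · rw [Derivation.smul_apply]
    apply Submodule.smul_mem
    have h1 := hD1 d m h hh
    rw [hE h] at h1
    have h2 : f ^ N ∈ 𝒜 (N • ((1 : ℕ), μ)) := SetLike.pow_mem_graded N hf
    apply mem_of_mul_mem_graded (pow_ne_zero N hf0) h2 (j := (d, m - a))
    have h3 : N • ((1 : ℕ), μ) + (d, m - a) = (d + N, m + N • μ - a) := by
      apply Prod.ext
      · simp [add_comm]
      · simp
        ring
    rw [h3]
    exact h1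
  · rw [Derivation.smul_apply, map_smul, smul_eq_mul, ← hD1v, hE h, map_mul, map_pow]

end Vale.Agent.P280.H644
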