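import Mathlib

/-! P280, row R5: graded tools. Derivations along algebra homomorphisms, limits of points. -/

open DirectSum

namespace Vale.Agent.P280.H644

variable {R : Type*} [CommRing R] [Algebra ℂ R]

/-- `δ : R → S` is a derivation along the algebra homomorphism `φ : R → S`. -/
def IsDer {S : Type*} [CommRing S] [Algebra ℂ S] (φ : R →ₐ[ℂ] S) (δ : R →ₗ[ℂ] S) : Prop :=
  ∀ f g, δ (f * g) = φ f * δ g + φ g * δ f

variable {ι : Type*} [DecidableEq ι] [AddCommMonoid ι] (𝒜 : ι → Submodule ℂ R) [GradedAlgebra 𝒜]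

section tw
variable {M : Type*} [AddCommGroup M] [Module ℂ M]

/-- The linear map which is `κ i` on the homogeneous elements of index `i`. -/
noncomputable def tw (κ : ι → R →ₗ[ℂ] M) : R →ₗ[ℂ] M :=
  (DirectSum.toModule ℂ ι M fun i => (κ i).comp (𝒜 i).subtype).comp
    (decomposeLinearEquiv 𝒜).toLinearMap

theorem tw_mem (κ : ι → R →ₗ[ℂ] M) {i : ι} {h : R} (hh : h ∈ 𝒜 i) : tw 𝒜 κ h = κ i h := by
  simp only [tw, LinearMap.comp_apply, LinearEquiv.coe_coe, decomposeLinearEquiv_apply]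
  rw [decompose_of_mem 𝒜 hh]
  erw [DirectSum.toModule_lof]
  rfl

variable {𝒜} in
theorem ext_hom {f g : R →ₗ[ℂ] M} (h : ∀ i, ∀ x ∈ 𝒜 i, f x = g x) : f = g := by
  ext x
  induction x using DirectSum.Decomposition.inductionOn 𝒜 with
  | zero => simp
  | homogeneous m => exact h _ _ m.2
  | add m m' h1 h2 => rw [map_add, map_add, h1, h2]

end tw

variable {𝒜} in
theorem bil {M : Type*} [AddCommGroup M] {B : R → R → M} (h0 : ∀ g, B 0 g = 0)
    (h0' : ∀ f, B f 0 = 0)
    (ha : ∀ f f' g, B (f + f') g = B f g + B f' g) (ha' : ∀ f g g', B f (g + g') = B f g + B f g')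
    (h : ∀ i j, ∀ f ∈ 𝒜 i, ∀ g ∈ 𝒜 j, B f g = 0) (f g : R) : B f g = 0 := by
  induction f using DirectSum.Decomposition.inductionOn 𝒜 with
  | zero => exact h0 g
  | add m m' h1 h2 => rw [ha, h1, h2, add_zero]
  | homogeneous m =>
    induction g using DirectSum.Decomposition.inductionOn 𝒜 with
    | zero => exact h0' _
    | add m m' h1 h2 => rw [ha', h1, h2, add_zero]
    | homogeneous m' => exact h _ _ _ m.2 _ m'.2

variable {𝒜} in
theorem isDer_of_hom {S : Type*} [CommRing S] [Algebra ℂ S] {φ : R →ₐ[ℂ] S} {δ : R →ₗ[ℂ] S}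
    (h : ∀ i j, ∀ f ∈ 𝒜 i, ∀ g ∈ 𝒜 j, δ (f * g) = φ f * δ g + φ g * δ f) : IsDer φ δ := by
  intro f g
  have := bil (𝒜 := 𝒜) (B := fun f g => δ (f * g) - (φ f * δ g + φ g * δ f)) (by simp) (by simp)
    (by intro f f' g; simp only [add_mul, map_add]; ring)
    (by intro f f' g; simp only [mul_add, add_mul, map_add]; ring)
    (fun i j f hf g hg => by rw [h i j f hf g hg, sub_self]) f g
  exact sub_eq_zero.1 this

variable {𝒜} in
theorem mul_of_hom {S : Type*} [CommRing S] [Algebra ℂ S] {δ : R →ₗ[ℂ] S}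
    (h : ∀ i j, ∀ f ∈ 𝒜 i, ∀ g ∈ 𝒜 j, δ (f * g) = δ f * δ g) (f g : R) :
    δ (f * g) = δ f * δ g := by
  have := bil (𝒜 := 𝒜) (B := fun f g => δ (f * g) - δ f * δ g) (by simp) (by simp)
    (by intro f f' g; simp only [add_mul, map_add]; ring)
    (by intro f f' g; simp only [mul_add, map_add]; ring)
    (fun i j f hf g hg => by rw [h i j f hf g hg, sub_self]) f g
  exact sub_eq_zero.1 this

/-- The point `z` is supported in `α ≥ 0`. -/
def Supp (z : R →ₐ[ℂ] ℂ) (α : ι →+ ℤ) : Prop := ∀ i, ∀ h ∈ 𝒜 i, z h ≠ 0 → 0 ≤ α i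

variable {z : R →ₐ[ℂ] ℂ} {α β : ι →+ ℤ}

/-- The limit point: `z` on the homogeneous elements with `α i = 0`, zero on the others. -/
noncomputable def lim (hα : Supp 𝒜 z α) : R →ₐ[ℂ] ℂ :=
  AlgHom.ofLinearMap (tw 𝒜 fun i => if α i = 0 then z.toLinearMap else 0)
    (by
      rw [tw_mem 𝒜 _ (SetLike.GradedOne.one_mem (A := 𝒜)), map_zero, if_pos rfl]
      exact map_one z)
    (by
      refine mul_of_hom (𝒜 := 𝒜) fun i j f hf g hg => ?_
      rw [tw_mem 𝒜 _ hf, tw_mem 𝒜 _ hg, tw_mem 𝒜 _ (SetLike.mul_mem_graded hf hg), map_add]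
      by_cases h1 : z f = 0
      · split_ifs <;> simp [h1]
      by_cases h2 : z g = 0
      · split_ifs <;> simp [h2]
      have h3 := hα i f hf h1
      have h4 := hα j g hg h2
      by_cases h5 : α i = 0
      · simp [h5]
        split_ifs <;> simp
      · rw [if_neg h5, if_neg (by omega)]; simp)

theorem lim_mem (hα : Supp 𝒜 z α) {i : ι} {h : R} (hh : h ∈ 𝒜 i) :
    lim 𝒜 hα h = if α i = 0 then z h else 0 := by
  rw [lim, AlgHom.ofLinearMap_apply, tw_mem 𝒜 _ hh]
  split_ifs <;> simp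

end Vale.Agent.P280.H644
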