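import Vale.Agent.P280.H644.Step
import Vale.Agent.P280.H127.Reg
import Vale.Agent.P280.T.Tools

/-! P280, row R5: the induction on the slope of a fixed point. -/

open DirectSum MvPolynomial
open Vale.Agent.P280.T

namespace Vale.Agent.P280.H644

variable {R : Type} [CommRing R] [Algebra ℂ R] {𝒜 : ℕ × ℤ → Submodule ℂ R} [GradedAlgebra 𝒜]

/-- degree -/
abbrev dg : ℕ × ℤ →+ ℕ := AddMonoidHom.fst ℕ ℤ

/-- weight -/
abbrev wg : ℕ × ℤ →+ ℤ := AddMonoidHom.snd ℕ ℤ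

/-- weight relative to the slope `ν` -/
abbrev rel (ν : ℤ) : ℕ × ℤ →+ ℤ := slope dg wg ν

omit [GradedAlgebra 𝒜] in
theorem Pc_eq (d : ℕ) (m : ℤ) : Pc 𝒜 dg wg d m = 𝒜 (d, m) := by
  apply le_antisymm
  · refine iSup_le fun i => iSup_le fun h => ?_
    obtain ⟨h1, h2⟩ := h
    have h3 : i = (d, m) := Prod.ext h1 h2
    rw [h3]
  · exact le_iSup_of_le (d, m) (le_iSup_of_le ⟨rfl, rfl⟩ le_rfl)

omit [GradedAlgebra 𝒜] in
theorem freeCurves (hN : NefOnRationalCurves 𝒜) : FreeCurves 𝒜 dg := by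
  intro e φ h1 h2 p hp v hv
  obtain ⟨δ, hδ, hδ', hv'⟩ := hN e φ (fun d m h hh => h1 (d, m) h hh) (fun a ha hver => by
    obtain ⟨i, hi, h, hh, hne⟩ := h2 a ha
    exact hne (hver i.1 i.2 hi h hh)) p hp v hv
  exact ⟨δ, hδ, fun i h hh => hδ' i.1 i.2 h hh, hv'⟩

omit [GradedAlgebra 𝒜] in
theorem hasWt_iff {μ w : ℤ} {v : R →ₗ[ℂ] ℂ} : HasWt 𝒜 dg wg μ w v ↔ HasWeight 𝒜 μ w v := by
  constructor
  · intro h d m x hx hv
    have := h (d, m) x hx hv
    simpa [mul_comm] using this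
  · intro h i x hx hv
    have := h i.1 i.2 x hx hv
    simpa [mul_comm] using this

/-- At a fixed point of slope different from the lowest one some orbit comes in. -/
theorem exists_incoming (hX : IsTorusManifold 𝒜) {μ : ℤ} {f : R} (hf : f ∈ 𝒜 (1, μ)) (hf0 : f ≠ 0)
    {x : R →ₐ[ℂ] ℂ} {ν : ℤ} (hx : ¬ IsVertex 𝒜 x) (hx' : IsFixed 𝒜 x ν) (hμν : μ < ν) :
    ∃ z : R →ₐ[ℂ] ℂ, z ≠ x ∧ (∀ i, ∀ h ∈ 𝒜 i, rel ν i = 0 → z h = x h) ∧
      ∀ i, ∀ h ∈ 𝒜 i, 0 < rel ν i → z h = 0 := by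
  have hft := hX.finiteType
  have hdom := hX.domain
  have hno : IsNoetherianRing R := Algebra.FiniteType.isNoetherianRing ℂ R
  have hfix : H127.Fix (coarse 𝒜 (rel ν)) x := by
    intro w hw h hh
    refine coarse_induction (P := fun h => x h = 0) (map_zero x) ?_ ?_ hh
    · intro a b ha hb
      rw [map_add, ha, hb, add_zero]
    · intro i hi h hh
      by_contra hne
      apply hw
      have := hx' i.1 i.2 h hh hne
      rw [← hi, slope_apply]
      simp [this, mul_comm]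
  obtain ⟨n, u, wt, G, hn⟩ := H127.exists_params hfix (hX.smooth x hx (H127.mx x) rfl)
  by_cases hneg : ∃ i, wt i < 0
  · obtain ⟨z, h1, h2, h3⟩ := H127.incoming hfix G hn.le hneg
    exact ⟨z, h1, fun i h hh hi => h2 h (mem_coarse hh hi), fun i h hh hi =>
      h3 _ hi h (mem_coarse hh rfl)⟩
  · exfalso
    have h1 := H127.source hfix G (C := {w : ℤ | w < 0}) (by simp)
      (fun w hw i => by
        have h2 : 0 ≤ wt i := by
          by_contra h
          exact hneg ⟨i, by omega⟩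
        simp only [Set.mem_ofPred_eq] at hw ⊢
        omega) (w := μ - ν) (by
        simp only [Set.mem_ofPred_eq]
        omega)
    apply hf0
    have h2 : f ∈ coarse 𝒜 (rel ν) (μ - ν) := mem_coarse hf (by simp)
    rw [h1] at h2
    exact (Submodule.mem_bot ℂ).1 h2

/-- Induction on the slope. -/
theorem slope_ind (hX : IsTorusManifold 𝒜) {μ : ℤ} {f : R} (hf : f ∈ 𝒜 (1, μ)) (hf0 : f ≠ 0)
    (hlow : ∀ (d : ℕ) (m : ℤ), ∀ h ∈ 𝒜 (d, m), h ≠ 0 → d • μ ≤ m)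
    {P : (R →ₐ[ℂ] ℂ) → ℤ → Prop}
    (base : ∀ x, ¬ IsVertex 𝒜 x → IsFixed 𝒜 x μ → P x μ)
    (step : ∀ (z : R →ₐ[ℂ] ℂ) (ν' ν : ℤ) (_ : ν' ≤ ν) (hα : Supp 𝒜 z (rel ν'))
      (hβ : Supp 𝒜 z (-rel ν)), (∃ i, 0 < dg i ∧ rel ν' i = 0 ∧ ∃ h ∈ 𝒜 i, z h ≠ 0) →
      (∃ i, 0 < dg i ∧ rel ν i = 0 ∧ ∃ h ∈ 𝒜 i, z h ≠ 0) →
      P (lim 𝒜 hα) ν' → P (lim 𝒜 hβ) ν) (x : R →ₐ[ℂ] ℂ) (ν : ℤ) (hx : ¬ IsVertex 𝒜 x)
    (hx' : IsFixed 𝒜 x ν) : P x ν := by
  induction hN : (ν - μ).toNat using Nat.strong_induction_on generalizing x ν with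
  | _ N ih =>
  have hex : ∃ d m, 0 < d ∧ ∃ h ∈ 𝒜 (d, m), x h ≠ 0 := by
    by_contra hcon
    apply hx
    intro d m hd h hh
    by_contra hne
    exact hcon ⟨d, m, hd, h, hh, hne⟩
  obtain ⟨d0, m0, hd0, h0, hh0, hx0⟩ := hex
  have hm0 := hx' d0 m0 h0 hh0 hx0
  have hνμ : μ ≤ ν := by
    have h1 := hlow d0 m0 h0 hh0 (fun h => hx0 (by rw [h, map_zero]))
    rw [hm0, nsmul_eq_mul, nsmul_eq_mul] at h1
    exact le_of_mul_le_mul_left h1 (by exact_mod_cast hd0)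
  rcases hνμ.eq_or_lt with heq | hlt
  · subst heq
    exact base x hx hx'
  obtain ⟨z, hzx, hz0, hzp⟩ := exists_incoming hX hf hf0 hx hx' hlt
  have hrel0 : rel ν (d0, m0) = 0 := by
    simp [hm0, mul_comm]
  have hz1 : z h0 ≠ 0 := by
    rw [hz0 _ h0 hh0 hrel0]
    exact hx0
  have hβ : Supp 𝒜 z (-rel ν) := by
    intro i h hh hne
    by_contra hneg
    apply hne
    apply hzp i h hh
    rw [AddMonoidHom.neg_apply] at hneg
    omega
  -- degree one elements which do not vanish at z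
  have hex1 : ∃ m, ∃ h ∈ 𝒜 (1, m), z h ≠ 0 := by
    by_contra hcon
    have h1 := slope_le (𝒜 := 𝒜) hX.gen (AddMonoidHom.id ℤ) (|m0| + 1) (RingHom.ker z)
      (fun m h hh hne => by
        exfalso
        exact hcon ⟨m, h, hh, fun h => hne h⟩) d0 m0 h0 hh0 (fun h => hz1 h)
    rw [AddMonoidHom.id_apply, nsmul_eq_mul] at h1
    have h2 : m0 ≤ |m0| := le_abs_self m0
    have h3 : 0 ≤ |m0| := abs_nonneg m0
    have h4 : (1 : ℤ) ≤ d0 := by exact_mod_cast hd0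
    nlinarith
  obtain ⟨ν', ⟨h1, hh1, hzh1⟩, hmin⟩ := Int.exists_least_of_bdd
    (P := fun m => ∃ h ∈ 𝒜 (1, m), z h ≠ 0)
    ⟨μ, fun m ⟨h, hh, hne⟩ => by
      have := hlow 1 m h hh (fun h0 => hne (by rw [h0, map_zero]))
      simpa using this⟩ hex1
  have hα : Supp 𝒜 z (rel ν') := by
    intro i h hh hne
    have := slope_le (𝒜 := 𝒜) hX.gen (AddMonoidHom.id ℤ) ν' (RingHom.ker z)
      (fun m h hh hne => hmin m ⟨h, hh, fun h0 => hne h0⟩) i.1 i.2 h hh (fun h0 => hne h0)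
    rw [AddMonoidHom.id_apply, nsmul_eq_mul] at this
    rw [slope_apply]
    simp only [AddMonoidHom.coe_fst, AddMonoidHom.coe_snd]
    linarith
  have hν'ν : ν' ≤ ν := by
    have := hβ (1, ν') h1 hh1 hzh1
    rw [AddMonoidHom.neg_apply, slope_apply] at this
    simp only [AddMonoidHom.coe_fst, AddMonoidHom.coe_snd, Nat.cast_one, mul_one] at this
    omega
  have hlimβ : lim 𝒜 hβ = x := by
    apply algHom_ext_graded 𝒜
    intro i h hh
    rw [lim_mem 𝒜 hβ hh, AddMonoidHom.neg_apply]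
    by_cases hi : rel ν i = 0
    · rw [if_pos (by omega), hz0 i h hh hi]
    · rw [if_neg (by omega)]
      by_contra hne
      apply hi
      have := hx' i.1 i.2 h hh (Ne.symm hne)
      rw [slope_apply]
      simp [this, mul_comm]
  have hne : ν' ≠ ν := by
    intro heq
    apply hzx
    rw [← hlimβ]
    apply algHom_ext_graded 𝒜
    intro i h hh
    rw [lim_mem 𝒜 hβ hh, AddMonoidHom.neg_apply]
    by_cases hi : rel ν i = 0
    · rw [if_pos (by omega)]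
    · rw [if_neg (by omega)]
      by_contra hne
      have h2 := hα i h hh hne
      have h3 := hβ i h hh hne
      rw [AddMonoidHom.neg_apply] at h3
      rw [heq] at h2
      omega
  have hy : ¬ IsVertex 𝒜 (lim 𝒜 hα) := by
    intro hv
    have := hv 1 ν' one_pos h1 hh1
    rw [lim_mem 𝒜 hα hh1, if_pos (by simp)] at this
    exact hzh1 this
  have hy' : IsFixed 𝒜 (lim 𝒜 hα) ν' := by
    intro d m h hh hne
    rw [lim_mem 𝒜 hα hh] at hne
    by_cases hi : rel ν' (d, m) = 0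
    · rw [slope_apply] at hi
      simp only [AddMonoidHom.coe_fst, AddMonoidHom.coe_snd] at hi
      rw [nsmul_eq_mul]
      linarith
    · rw [if_neg hi] at hne
      exact absurd rfl hne
  have hlow' : μ ≤ ν' := by
    have := hlow 1 ν' h1 hh1 (fun h0 => hzh1 (by rw [h0, map_zero]))
    simpa using this
  rw [← hlimβ]
  exact step z ν' ν hν'ν hα hβ ⟨(1, ν'), one_pos, by simp, h1, hh1, hzh1⟩
    ⟨(d0, m0), hd0, hrel0, h0, hh0, hz1⟩ (ih _ (by omega) _ ν' hy hy' rfl)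

end Vale.Agent.P280.H644
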