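import Vale.Agent.P280.H644.Gr

/-! P280, row R5: the rational curve of a point with two limits; lifting of tangent vectors. -/

open DirectSum MvPolynomial

namespace Vale.Agent.P280.H644

variable {R : Type*} [CommRing R] [Algebra ℂ R]
variable {ι : Type*} [DecidableEq ι] [AddCommMonoid ι] (𝒜 : ι → Submodule ℂ R) [GradedAlgebra 𝒜]
variable {z : R →ₐ[ℂ] ℂ} {α β : ι →+ ℤ}

/-- Exponents. -/
noncomputable def ex (a b : ℕ) : Fin 2 →₀ ℕ := Finsupp.single 0 a + Finsupp.single 1 b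

@[simp] theorem ex_zero (a b : ℕ) : ex a b 0 = a := by simp [ex]
@[simp] theorem ex_one (a b : ℕ) : ex a b 1 = b := by simp [ex]

theorem ex_le {a b a' b' : ℕ} : ex a b ≤ ex a' b' ↔ a ≤ a' ∧ b ≤ b' := by
  constructor
  · intro h
    exact ⟨by simpa using h 0, by simpa using h 1⟩
  · rintro ⟨h1, h2⟩ i
    fin_cases i
    · simpa using h1
    · simpa using h2

theorem ex_sub (a b a' b' : ℕ) : ex a' b' - ex a b = ex (a' - a) (b' - b) := by
  ext i
  fin_cases i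
  · simp
  · simp

theorem ex_add (a b a' b' : ℕ) : ex a b + ex a' b' = ex (a + a') (b + b') := by
  ext i
  fin_cases i
  · simp
  · simp

theorem ex_inj {a b a' b' : ℕ} (h : ex a b = ex a' b') : a = a' ∧ b = b' :=
  ⟨by simpa using DFunLike.congr_fun h 0, by simpa using DFunLike.congr_fun h 1⟩

theorem eq_ex (s : Fin 2 →₀ ℕ) : s = ex (s 0) (s 1) := by
  ext i
  fin_cases i
  · simp
  · simp

/-- `h ↦ z(h) s^α t^β`. -/
noncomputable def curveLin (z : R →ₐ[ℂ] ℂ) (α β : ι →+ ℤ) : R →ₗ[ℂ] MvPolynomial (Fin 2) ℂ :=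
  tw 𝒜 fun i => (MvPolynomial.monomial (ex (α i).toNat (β i).toNat)).comp z.toLinearMap

theorem curveLin_mem {i : ι} {h : R} (hh : h ∈ 𝒜 i) :
    curveLin 𝒜 z α β h = MvPolynomial.monomial (ex (α i).toNat (β i).toNat) (z h) := by
  rw [curveLin, tw_mem 𝒜 _ hh]
  rfl

/-- The curve `h ↦ z(h) s^α t^β`, an algebra homomorphism. -/
noncomputable def curve (hα : Supp 𝒜 z α) (hβ : Supp 𝒜 z β) : R →ₐ[ℂ] MvPolynomial (Fin 2) ℂ :=
  AlgHom.ofLinearMap (curveLin 𝒜 z α β)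
    (by
      rw [curveLin_mem 𝒜 (SetLike.GradedOne.one_mem (A := 𝒜)), map_zero, map_zero, map_one]
      have : ex (Int.toNat 0) (Int.toNat 0) = 0 := by
        ext i
        fin_cases i <;> simp
      rw [this]
      rfl)
    (by
      refine mul_of_hom (𝒜 := 𝒜) fun i j f hf g hg => ?_
      rw [curveLin_mem 𝒜 hf, curveLin_mem 𝒜 hg, curveLin_mem 𝒜 (SetLike.mul_mem_graded hf hg),
        MvPolynomial.monomial_mul, map_mul]
      by_cases h1 : z f = 0
      · simp [h1]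
      by_cases h2 : z g = 0
      · simp [h2]
      have h3 := hα i f hf h1
      have h4 := hα j g hg h2
      have h5 := hβ i f hf h1
      have h6 := hβ j g hg h2
      rw [ex_add, map_add, map_add, Int.toNat_add h3 h4, Int.toNat_add h5 h6])

theorem curve_mem (hα : Supp 𝒜 z α) (hβ : Supp 𝒜 z β) {i : ι} {h : R} (hh : h ∈ 𝒜 i) :
    curve 𝒜 hα hβ h = MvPolynomial.monomial (ex (α i).toNat (β i).toNat) (z h) := by
  rw [curve, AlgHom.ofLinearMap_apply, curveLin_mem 𝒜 hh]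

/-- The component of weight `w` of a derivation along the curve. -/
noncomputable def comp (α β : ι →+ ℤ) (w : ℤ) (δ : R →ₗ[ℂ] MvPolynomial (Fin 2) ℂ) : R →ₗ[ℂ] ℂ :=
  tw 𝒜 fun i => if 0 ≤ α i - w ∧ 0 ≤ β i + w then
    (MvPolynomial.lcoeff ℂ (ex (α i - w).toNat (β i + w).toNat)).comp δ else 0

theorem comp_mem (α β : ι →+ ℤ) (w : ℤ) (δ : R →ₗ[ℂ] MvPolynomial (Fin 2) ℂ) {i : ι} {h : R}
    (hh : h ∈ 𝒜 i) : comp 𝒜 α β w δ h = if 0 ≤ α i - w ∧ 0 ≤ β i + w then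
      MvPolynomial.coeff (ex (α i - w).toNat (β i + w).toNat) (δ h) else 0 := by
  rw [comp, tw_mem 𝒜 _ hh]
  split_ifs
  · rfl
  · rfl

theorem coeff_aux {a b : ℤ} (ha : 0 ≤ a) (hb : 0 ≤ b) {a' b' w : ℤ} (c : ℂ)
    (p : MvPolynomial (Fin 2) ℂ) (h1 : 0 ≤ a + a' - w) (h2 : 0 ≤ b + b' + w) :
    MvPolynomial.coeff (ex (a + a' - w).toNat (b + b' + w).toNat)
      (MvPolynomial.monomial (ex a.toNat b.toNat) c * p) =
    c * if 0 ≤ a' - w ∧ 0 ≤ b' + w then
      MvPolynomial.coeff (ex (a' - w).toNat (b' + w).toNat) p else 0 := by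
  rw [MvPolynomial.coeff_monomial_mul']
  by_cases h : 0 ≤ a' - w ∧ 0 ≤ b' + w
  · rw [if_pos h, if_pos (ex_le.2 ⟨by omega, by omega⟩), ex_sub]
    congr 3
    · omega
    · omega
  · rw [if_neg h, if_neg, mul_zero]
    intro h'
    have := ex_le.1 h'
    apply h
    omega

theorem isDer_comp (hα : Supp 𝒜 z α) (hβ : Supp 𝒜 z β) (w : ℤ)
    {δ : R →ₗ[ℂ] MvPolynomial (Fin 2) ℂ} (hδ : IsDer (curve 𝒜 hα hβ) δ) :
    IsDer z (comp 𝒜 α β w δ) := by
  refine isDer_of_hom (𝒜 := 𝒜) fun i j f hf g hg => ?_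
  have key : ∀ {i j : ι} {f g : R}, f ∈ 𝒜 i → g ∈ 𝒜 j → 0 ≤ α i + α j - w → 0 ≤ β i + β j + w →
      MvPolynomial.coeff (ex (α i + α j - w).toNat (β i + β j + w).toNat)
        (curve 𝒜 hα hβ f * δ g) = z f * comp 𝒜 α β w δ g := by
    intro i j f g hf hg h1 h2
    rw [curve_mem 𝒜 hα hβ hf, comp_mem 𝒜 _ _ _ _ hg]
    by_cases h3 : z f = 0
    · simp [h3]
    exact coeff_aux (hα i f hf h3) (hβ i f hf h3) _ _ h1 h2
  have key0 : ∀ {i j : ι} {f g : R}, f ∈ 𝒜 i → g ∈ 𝒜 j →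
      ¬ (0 ≤ α i + α j - w ∧ 0 ≤ β i + β j + w) → z f * comp 𝒜 α β w δ g = 0 := by
    intro i j f g hf hg h
    by_cases h3 : z f = 0
    · simp [h3]
    have h4 := hα i f hf h3
    have h5 := hβ i f hf h3
    rw [comp_mem 𝒜 _ _ _ _ hg, if_neg (by omega), mul_zero]
  rw [comp_mem 𝒜 _ _ _ _ (SetLike.mul_mem_graded hf hg), map_add, map_add]
  by_cases h : 0 ≤ α i + α j - w ∧ 0 ≤ β i + β j + w
  · rw [if_pos h, hδ f g, MvPolynomial.coeff_add, key hf hg h.1 h.2,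
      add_comm (α i) (α j), add_comm (β i) (β j), key hg hf (by omega) (by omega)]
  · rw [if_neg h, key0 hf hg h, key0 hg hf (by omega), add_zero]

/-- The value at `(1, 0)` of a homogeneous polynomial of degree `n` is the coefficient of `s^n`. -/
theorem aeval_ex {n : ℕ} {p : MvPolynomial (Fin 2) ℂ} (hp : p.IsHomogeneous n) :
    MvPolynomial.aeval (![1, 0] : Fin 2 → ℂ) p = MvPolynomial.coeff (ex n 0) p := by
  rw [MvPolynomial.aeval_def, MvPolynomial.eval₂_eq']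
  rw [Finset.sum_eq_single (ex n 0)]
  · simp
  · intro b hb hne
    rw [MvPolynomial.mem_support_iff] at hb
    have h1 := hp hb
    rw [Finsupp.weight_apply, Finsupp.sum_fintype _ _ (by simp)] at h1
    simp only [Fin.sum_univ_two, Pi.one_apply, smul_eq_mul, mul_one] at h1
    have h2 : b 1 ≠ 0 := by
      intro h0
      apply hne
      rw [eq_ex b, h0]
      congr 1
      omega
    simp [Fin.prod_univ_two, h2]
  · intro h
    rw [MvPolynomial.notMem_support_iff.1 h]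
    simp

theorem isHomogeneous_curve (hα : Supp 𝒜 z α) (hβ : Supp 𝒜 z β) {i : ι} {h : R} (hh : h ∈ 𝒜 i)
    {n : ℕ} (hn : α i + β i = n) : (curve 𝒜 hα hβ h).IsHomogeneous n := by
  rw [curve_mem 𝒜 hα hβ hh]
  by_cases h3 : z h = 0
  · rw [h3, map_zero]
    exact MvPolynomial.isHomogeneous_zero _ _ _
  · have h4 := hα i h hh h3
    have h5 := hβ i h hh h3
    apply MvPolynomial.isHomogeneous_monomial
    rw [Finsupp.degree_eq_sum]
    simp only [Fin.sum_univ_two, ex_zero, ex_one]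
    omega

/-- At `(1, 0)` the curve is the limit point of `z` for `β`. -/
theorem curve_one_zero (hα : Supp 𝒜 z α) (hβ : Supp 𝒜 z β) (h : R) :
    MvPolynomial.aeval (![1, 0] : Fin 2 → ℂ) (curve 𝒜 hα hβ h) = lim 𝒜 hβ h := by
  have := ext_hom (𝒜 := 𝒜) (f := ((MvPolynomial.aeval (![1, 0] : Fin 2 → ℂ)).comp
    (curve 𝒜 hα hβ)).toLinearMap) (g := (lim 𝒜 hβ).toLinearMap) ?_
  · exact LinearMap.congr_fun this h
  intro i x hx
  simp only [AlgHom.toLinearMap_apply, AlgHom.comp_apply]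
  rw [curve_mem 𝒜 hα hβ hx, lim_mem 𝒜 hβ hx, MvPolynomial.aeval_monomial]
  by_cases h3 : z x = 0
  · simp [h3]
  have h5 := hβ i x hx h3
  by_cases h6 : β i = 0
  · simp [h6, ex, Finsupp.prod_fintype, Fin.prod_univ_two]
  · rw [if_neg h6]
    have : (β i).toNat ≠ 0 := by omega
    simp [ex, Finsupp.prod_fintype, Fin.prod_univ_two, this]

/-- At `(0, 1)` the curve is the limit point of `z` for `α`. -/
theorem curve_zero_one (hα : Supp 𝒜 z α) (hβ : Supp 𝒜 z β) (h : R) :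
    MvPolynomial.aeval (![0, 1] : Fin 2 → ℂ) (curve 𝒜 hα hβ h) = lim 𝒜 hα h := by
  have := ext_hom (𝒜 := 𝒜) (f := ((MvPolynomial.aeval (![0, 1] : Fin 2 → ℂ)).comp
    (curve 𝒜 hα hβ)).toLinearMap) (g := (lim 𝒜 hα).toLinearMap) ?_
  · exact LinearMap.congr_fun this h
  intro i x hx
  simp only [AlgHom.toLinearMap_apply, AlgHom.comp_apply]
  rw [curve_mem 𝒜 hα hβ hx, lim_mem 𝒜 hα hx, MvPolynomial.aeval_monomial]
  by_cases h3 : z x = 0
  · simp [h3]
  have h5 := hα i x hx h3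
  by_cases h6 : α i = 0
  · simp [h6, ex, Finsupp.prod_fintype, Fin.prod_univ_two]
  · rw [if_neg h6]
    have : (α i).toNat ≠ 0 := by omega
    simp [ex, Finsupp.prod_fintype, Fin.prod_univ_two, this]

end Vale.Agent.P280.H644
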