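import Vale.Agent.P280.H644.Open1
import Vale.Agent.P280.H939.Grp
import Vale.Agent.P280.H93.Minors

/-!
# P280 (T2): orbits are open
-/

namespace Vale.Agent.P280.H644

open Filter Topology MvPolynomial Vale.Agent.P280.T Vale.Agent.P280.H939

section
variable {M : Type} [AddCommGroup M] [DecidableEq M]
variable {R : Type} [CommRing R] [Algebra ℂ R]
variable {𝒜 : ℕ × M → Submodule ℂ R} [GradedAlgebra 𝒜]

/-- The equations of the cone in the coordinates `h`. -/
noncomputable def relI {m : ℕ} (h : Fin m → R) : Submodule ℂ (MvPolynomial (Fin m) ℂ) :=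
  LinearMap.ker (aeval h : MvPolynomial (Fin m) ℂ →ₐ[ℂ] R).toLinearMap

theorem eval_point {m : ℕ} (h : Fin m → R) (q : R →ₐ[ℂ] ℂ) (g : MvPolynomial (Fin m) ℂ) :
    eval (fun i => q (h i)) g = q (aeval h g) := by
  rw [← MvPolynomial.coe_aeval_eq_eval]
  exact (MvPolynomial.comp_aeval_apply h q g).symm

/-- a vector killed by the differentials of the equations is a tangent vector -/
theorem exists_tangent_of_dv {m : ℕ} {h : Fin m → R}
    (hsurj : Function.Surjective (aeval h : MvPolynomial (Fin m) ℂ →ₐ[ℂ] R))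
    (p : R →ₐ[ℂ] ℂ) {w : Fin m → ℂ}
    (hw : ∀ g ∈ relI h, dv (fun i => p (h i)) g w = 0) :
    ∃ v : R →ₗ[ℂ] ℂ, IsTangent p v ∧ ∀ i, v (h i) = w i := by
  obtain ⟨s, hs⟩ := LinearMap.exists_rightInverse_of_surjective
    (aeval h : MvPolynomial (Fin m) ℂ →ₐ[ℂ] R).toLinearMap (LinearMap.range_eq_top.2 hsurj)
  let δ : MvPolynomial (Fin m) ℂ →ₗ[ℂ] ℂ :=
    (dv (fun i => p (h i))).flip w
  have hδ : ∀ g, δ g = ∑ i, eval (fun i => p (h i)) (pderiv i g) * w i := fun g => dv_apply _ g w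
  have key : ∀ g, (δ ∘ₗ s) (aeval h g) = δ g := by
    intro g
    have h1 : s (aeval h g) - g ∈ relI h := by
      change (aeval h : MvPolynomial (Fin m) ℂ →ₐ[ℂ] R).toLinearMap _ = 0
      rw [map_sub, sub_eq_zero]
      exact LinearMap.congr_fun hs (aeval h g)
    have h2 : δ (s (aeval h g) - g) = 0 := hw _ h1
    rw [map_sub, sub_eq_zero] at h2
    exact h2
  refine ⟨δ ∘ₗ s, ?_, ?_⟩
  · intro a b
    obtain ⟨a, rfl⟩ := hsurj a
    obtain ⟨b, rfl⟩ := hsurj b
    rw [← map_mul, key, key, key, hδ, hδ, hδ, ← eval_point h p, ← eval_point h p,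
      Finset.mul_sum, Finset.mul_sum, ← Finset.sum_add_distrib]
    refine Finset.sum_congr rfl fun i _ => ?_
    rw [Derivation.leibniz, smul_eq_mul, smul_eq_mul, map_add, map_mul, map_mul]
    ring
  · intro i
    have h1 := key (X i)
    rw [aeval_X] at h1
    rw [h1, hδ, Finset.sum_eq_single i]
    · simp
    · intro b _ hb
      simp [pderiv_X, hb.symm]
    · intro hh; exact absurd (Finset.mem_univ i) hh

omit [DecidableEq M] [AddCommGroup M] [GradedAlgebra 𝒜] in
theorem exists_matrix {m : ℕ} {h : Fin m → R}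
    (hspan : Submodule.span ℂ (Set.range h) = deg 𝒜 1) {D : Derivation ℂ R R}
    (hD : IsField 𝒜 D) : ∃ A : Fin m → Fin m → ℂ, ∀ i, D (h i) = ∑ j, A i j • h j := by
  have h1 : ∀ i, ∃ A : Fin m → ℂ, ∑ j, A j • h j = D (h i) := by
    intro i
    have h2 : h i ∈ deg 𝒜 1 := by
      rw [← hspan]; exact Submodule.subset_span ⟨i, rfl⟩
    have h3 := field_deg hD h2
    rw [← hspan] at h3
    exact (Submodule.mem_span_range_iff_exists_fun ℂ).1 h3
  choose A hA using h1
  exact ⟨A, fun i => (hA i).symm⟩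

/-- iterates of a field in coordinates -/
theorem iterate_coord {m : ℕ} {h : Fin m → R} {D : Derivation ℂ R R}
    (L : (Fin m → ℂ) →L[ℂ] (Fin m → ℂ)) (A : Fin m → Fin m → ℂ)
    (hA : ∀ i, D (h i) = ∑ j, A i j • h j)
    (hL : ∀ x i, L x i = ∑ j, A i j * x j) (p : R →ₗ[ℂ] ℂ) (k : ℕ) :
    ∀ i, p ((⇑(D : R →ₗ[ℂ] R))^[k] (h i)) = (L ^ k) (fun i => p (h i)) i := by
  induction k with
  | zero => intro i; rfl
  | succ k ih =>
    intro i
    rw [Function.iterate_succ_apply, pow_succ']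
    change p ((⇑(D : R →ₗ[ℂ] R))^[k] (D (h i))) = L ((L ^ k) (fun i => p (h i))) i
    rw [hA, hL, ← Module.End.pow_apply, map_sum, map_sum]
    refine Finset.sum_congr rfl fun j _ => ?_
    rw [map_smul, map_smul, smul_eq_mul, Module.End.pow_apply, ih]

/-- the flow in coordinates -/
theorem flow_coord {m : ℕ} {h : Fin m → R} {D : Derivation ℂ R R}
    (L : (Fin m → ℂ) →L[ℂ] (Fin m → ℂ)) (A : Fin m → Fin m → ℂ)
    (hA : ∀ i, D (h i) = ∑ j, A i j • h j)
    (hL : ∀ x i, L x i = ∑ j, A i j * x j) (p : R →ₐ[ℂ] ℂ) {F : R ≃ₐ[ℂ] R}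
    (hF : ∀ x, IsExpAt (D : R →ₗ[ℂ] R) x (F x)) (i : Fin m) :
    p (F (h i)) = NormedSpace.exp L (fun i => p (h i)) i := by
  have h1 := NormedSpace.exp_series_hasSum_exp' (𝕂 := ℂ) L
  have h2 := (h1.mapL (ContinuousLinearMap.apply ℂ (Fin m → ℂ) (fun i => p (h i)))).mapL
    (ContinuousLinearMap.proj i : (Fin m → ℂ) →L[ℂ] ℂ)
  have h3 := hF (h i) p.toLinearMap
  refine h3.unique (h2.congr_fun ?_)
  intro k
  rw [iterate_coord L A hA hL]
  rfl

theorem dsum_apply {ι : Type} (s : Finset ι) (D : ι → Derivation ℂ R R) (h : R) :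
    (∑ i ∈ s, D i) h = ∑ i ∈ s, D i h := by
  classical
  induction s using Finset.induction_on with
  | empty => rw [Finset.sum_empty, Finset.sum_empty]; rfl
  | insert a s ha ih =>
    rw [Finset.sum_insert ha, Finset.sum_insert ha, Derivation.add_apply, ih]

omit [DecidableEq M] [AddCommGroup M] [GradedAlgebra 𝒜] in
theorem isField_sum {ι : Type} (s : Finset ι) (t : ι → ℂ) (D : ι → Derivation ℂ R R)
    (hD : ∀ i, IsField 𝒜 (D i)) : IsField 𝒜 (∑ i ∈ s, t i • D i) := by
  intro d m h hh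
  rw [dsum_apply]
  refine Submodule.sum_mem _ fun i _ => ?_
  rw [Derivation.smul_apply]
  exact Submodule.smul_mem _ _ (hD i d m h hh)

omit [DecidableEq M] [AddCommGroup M] [GradedAlgebra 𝒜] in
theorem surj_of_span (hgen : Algebra.adjoin ℂ {h : R | ∃ m : M, h ∈ 𝒜 (1, m)} = ⊤) {m : ℕ}
    {h : Fin m → R} (hspan : Submodule.span ℂ (Set.range h) = deg 𝒜 1) :
    Function.Surjective (aeval h : MvPolynomial (Fin m) ℂ →ₐ[ℂ] R) := by
  rw [← AlgHom.range_eq_top, ← Algebra.adjoin_range_eq_range_aeval, eq_top_iff, ← hgen,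
    Algebra.adjoin_le_iff]
  rintro x ⟨k, hx⟩
  have h1 : x ∈ deg 𝒜 1 := (le_iSup (fun m : M => 𝒜 (1, m)) k) hx
  rw [← hspan] at h1
  exact (Submodule.span_le.2 (Algebra.subset_adjoin) : Submodule.span ℂ (Set.range h) ≤
    Subalgebra.toSubmodule (Algebra.adjoin ℂ (Set.range h))) h1

/-- **Orbits are open**: points near `p` are in its orbit under the group generated by the flows
of the fields, if the fields generate the tangent space at `p`. -/
theorem open_orbit (hgen : Algebra.adjoin ℂ {h : R | ∃ m : M, h ∈ 𝒜 (1, m)} = ⊤)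
    (hfin : ∀ d, FiniteDimensional ℂ (deg 𝒜 d)) {p : R →ₐ[ℂ] ℂ}
    (hT : ∀ v : R →ₗ[ℂ] ℂ, IsTangent p v →
      ∃ D : Derivation ℂ R R, IsField 𝒜 D ∧ ∀ h : R, p (D h) = v h)
    {ι : Type} {l : Filter ι} {z : ι → R →ₐ[ℂ] ℂ}
    (hz : ∀ h : R, Tendsto (fun i => z i h) l (𝓝 (p h))) :
    ∀ᶠ i in l, OrbRel 𝒜 p (z i) := by
  classical
  have hfin1 := hfin 1
  obtain ⟨m, h, hspan⟩ : ∃ (m : ℕ) (h : Fin m → R), Submodule.span ℂ (Set.range h) = deg 𝒜 1 :=
    Submodule.fg_iff_exists_fin_generating_family.1 (Submodule.fg_iff_finiteDimensional _ |>.2 hfin1)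
  have hsurj := surj_of_span hgen hspan
  let v : Fin m → ℂ := fun i => p (h i)
  -- the tangent space
  let T : Submodule ℂ (Fin m → ℂ) :=
    { carrier := {w | ∃ D : Derivation ℂ R R, IsField 𝒜 D ∧ ∀ i, p (D (h i)) = w i}
      add_mem' := by
        rintro w w' ⟨D, hD, h1⟩ ⟨D', hD', h2⟩
        refine ⟨D + D', fun d k x hx => ?_, fun i => ?_⟩
        · rw [Derivation.add_apply]
          exact Submodule.add_mem _ (hD d k x hx) (hD' d k x hx)
        · rw [Derivation.add_apply, map_add, h1, h2]; rfl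
      zero_mem' := ⟨0, fun d k x hx => by
        rw [Derivation.zero_apply]; exact Submodule.zero_mem _, fun i => by
          rw [Derivation.zero_apply, map_zero]; rfl⟩
      smul_mem' := by
        rintro c w ⟨D, hD, h1⟩
        refine ⟨c • D, fun d k x hx => ?_, fun i => ?_⟩
        · rw [Derivation.smul_apply]
          exact Submodule.smul_mem _ _ (hD d k x hx)
        · rw [Derivation.smul_apply, map_smul, h1]; rfl }
  obtain ⟨N, w, hw⟩ : ∃ (N : ℕ) (w : Fin N → (Fin m → ℂ)), Submodule.span ℂ (Set.range w) = T :=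
    Submodule.fg_iff_exists_fin_generating_family.1 (IsNoetherian.noetherian _)
  have hwT : ∀ k, ∃ D : Derivation ℂ R R, IsField 𝒜 D ∧ ∀ i, p (D (h i)) = w k i := by
    intro k
    have : w k ∈ T := by rw [← hw]; exact Submodule.subset_span ⟨k, rfl⟩
    exact this
  choose D hD hDw using hwT
  have hmat := fun k => exists_matrix hspan (hD k)
  choose A hA using hmat
  let Lk : Fin N → ((Fin m → ℂ) →L[ℂ] (Fin m → ℂ)) := fun k =>
    LinearMap.toContinuousLinearMap (Matrix.toLin' (Matrix.of (A k)))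
  have hLk : ∀ k x i, Lk k x i = ∑ j, A k i j * x j := by
    intro k x i
    change Matrix.toLin' (Matrix.of (A k)) x i = _
    rw [Matrix.toLin'_apply]
    rfl
  let L : (Fin N → ℂ) →L[ℂ] ((Fin m → ℂ) →L[ℂ] (Fin m → ℂ)) :=
    LinearMap.toContinuousLinearMap (Fintype.linearCombination ℂ Lk)
  have hLt : ∀ t, L t = ∑ k, t k • Lk k := fun t => Fintype.linearCombination_apply ℂ Lk t
  have hL : ∀ u, (∀ g ∈ relI h, dv v g u = 0) → ∃ t, L t v = u := by
    intro u hu
    obtain ⟨v', hv', hvu⟩ := exists_tangent_of_dv hsurj p hu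
    obtain ⟨D0, hD0, h1⟩ := hT v' hv'
    have h2 : u ∈ T := ⟨D0, hD0, fun i => by rw [h1, hvu]⟩
    rw [← hw, Submodule.mem_span_range_iff_exists_fun] at h2
    obtain ⟨t, ht⟩ := h2
    refine ⟨t, ?_⟩
    rw [← ht, hLt, sum_apply]
    refine Finset.sum_congr rfl fun k _ => ?_
    rw [smul_apply]
    congr 1
    funext i
    rw [hLk, ← hDw k i, hA k i, map_sum]
    refine Finset.sum_congr rfl fun j _ => ?_
    rw [map_smul, smul_eq_mul]
  -- flows
  have hflow : ∀ t, ∃ F ∈ Gam 𝒜, ∀ i, p (F (h i)) = NormedSpace.exp (L t) v i := by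
    intro t
    obtain ⟨F, hF, hF'⟩ := exists_flow hfin (isField_sum Finset.univ t D hD)
    refine ⟨F, hF, fun i => ?_⟩
    refine flow_coord (L t) (fun i j => ∑ k, t k * A k i j) ?_ ?_ p hF' i
    · intro i
      rw [dsum_apply]
      simp only [Finset.sum_smul, Derivation.smul_apply]
      rw [Finset.sum_comm]
      refine Finset.sum_congr rfl fun k _ => ?_
      rw [hA k i, Finset.smul_sum]
      refine Finset.sum_congr rfl fun j _ => ?_
      rw [mul_smul]
    · intro x i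
      rw [hLt, sum_apply, Finset.sum_apply]
      simp only [Finset.sum_mul]
      rw [Finset.sum_comm]
      refine Finset.sum_congr rfl fun k _ => ?_
      rw [smul_apply, Pi.smul_apply, hLk, smul_eq_mul, Finset.mul_sum]
      refine Finset.sum_congr rfl fun j _ => ?_
      rw [mul_assoc]
  have hI : ∀ t, ∀ g ∈ relI h, eval (NormedSpace.exp (L t) v) g = 0 := by
    intro t g hg
    obtain ⟨F, -, hF⟩ := hflow t
    have h1 : NormedSpace.exp (L t) v = fun i => (p.comp (F : R →ₐ[ℂ] R)) (h i) := by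
      funext i
      exact (hF i).symm
    rw [h1, eval_point]
    have h2 : aeval h g = 0 := hg
    rw [h2, map_zero]
  have hev := open_aux v (relI h) L hL hI
  have htend : Tendsto (fun i => (fun j => z i (h j))) l (𝓝 v) :=
    tendsto_pi_nhds.2 fun j => hz (h j)
  filter_upwards [htend.eventually hev] with i hi
  have h1 : ∀ g ∈ relI h, eval (fun j => z i (h j)) g = 0 := by
    intro g hg
    rw [eval_point]
    have h2 : aeval h g = 0 := hg
    rw [h2, map_zero]
  obtain ⟨t, ht⟩ := hi h1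
  obtain ⟨F, hF, hF'⟩ := hflow t
  refine ⟨F, hF, fun x => ?_⟩
  obtain ⟨g, rfl⟩ := hsurj x
  have h3 : (fun j => z i (h j)) = fun j => (p.comp (F : R →ₐ[ℂ] R)) (h j) := by
    rw [ht]
    funext j
    exact (hF' j).symm
  rw [← eval_point, h3, eval_point]
  rfl

end

end Vale.Agent.P280.H644
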