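import Mathlib

/-!
# P280 (T2), analytic part: solutions of polynomial equations near a point of an orbit
-/

namespace Vale.Agent.P280.H644

open Filter Topology MvPolynomial

section
variable {m : ℕ}

/-- the differential of a polynomial at a point -/
noncomputable def dv (v : Fin m → ℂ) : MvPolynomial (Fin m) ℂ →ₗ[ℂ] ((Fin m → ℂ) →ₗ[ℂ] ℂ) where
  toFun g := ∑ i, (eval v (pderiv i g)) • (LinearMap.proj i : (Fin m → ℂ) →ₗ[ℂ] ℂ)
  map_add' a b := by
    simp only [map_add, add_smul, Finset.sum_add_distrib]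
  map_smul' c a := by
    simp only [Derivation.map_smul, smul_eval, RingHom.id_apply, Finset.smul_sum, smul_smul]

theorem dv_apply (v : Fin m → ℂ) (g : MvPolynomial (Fin m) ℂ) (w : Fin m → ℂ) :
    dv v g w = ∑ i, eval v (pderiv i g) * w i := by
  simp [dv, LinearMap.sum_apply]

/-- the same as a continuous linear map -/
noncomputable def dvc (v : Fin m → ℂ) (g : MvPolynomial (Fin m) ℂ) : (Fin m → ℂ) →L[ℂ] ℂ :=
  LinearMap.toContinuousLinearMap (dv v g)

theorem dvc_apply (v : Fin m → ℂ) (g : MvPolynomial (Fin m) ℂ) (w : Fin m → ℂ) :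
    dvc v g w = dv v g w := rfl

theorem mv_strict (g : MvPolynomial (Fin m) ℂ) (v : Fin m → ℂ) :
    HasStrictFDerivAt (fun x : Fin m → ℂ => eval x g) (dvc v g) v := by
  induction g using MvPolynomial.induction_on with
  | C a =>
    have h1 : dvc v (C a) = 0 := by
      ext w
      rw [dvc_apply, dv_apply]
      simp
    rw [h1]
    simp only [eval_C]
    exact hasStrictFDerivAt_const a v
  | add p q hp hq =>
    have h1 : dvc v (p + q) = dvc v p + dvc v q := by
      ext w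
      simp only [add_apply, dvc_apply, map_add, LinearMap.add_apply]
    rw [h1]
    simp only [map_add]
    exact hp.add hq
  | mul_X p i hp =>
    have h1 : dvc v (p * X i) = eval v p • (ContinuousLinearMap.proj i : (Fin m → ℂ) →L[ℂ] ℂ) +
        v i • dvc v p := by
      ext w
      simp only [add_apply, smul_apply, dvc_apply, dv_apply, smul_eq_mul,
        Derivation.leibniz, pderiv_X, map_add, smul_eq_mul, map_mul, eval_X]
      simp only [add_mul, Finset.sum_add_distrib, Finset.mul_sum]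
      congr 1
      · rw [Finset.sum_eq_single i]
        · simp
        · intro b _ hb
          simp [hb.symm]
        · intro h; exact absurd (Finset.mem_univ i) h
      · refine Finset.sum_congr rfl fun j _ => ?_
        ring
    rw [h1]
    simp only [map_mul, eval_X]
    exact hp.mul (ContinuousLinearMap.proj i : (Fin m → ℂ) →L[ℂ] ℂ).hasStrictFDerivAt

/-- finitely many equations suffice for the tangent space -/
theorem exists_finite_eqs (v : Fin m → ℂ) (I : Submodule ℂ (MvPolynomial (Fin m) ℂ)) :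
    ∃ (J : ℕ) (gs : Fin J → MvPolynomial (Fin m) ℂ), (∀ j, gs j ∈ I) ∧
      ∀ w, (∀ j, dv v (gs j) w = 0) → ∀ g ∈ I, dv v g w = 0 := by
  have hfg : (I.map (dv v)).FG := IsNoetherian.noetherian _
  obtain ⟨J, s, hs⟩ := Submodule.fg_iff_exists_fin_generating_family.1 hfg
  have h1 : ∀ j, ∃ g ∈ I, dv v g = s j := by
    intro j
    have h2 : s j ∈ I.map (dv v) := by
      rw [← hs]
      exact Submodule.subset_span ⟨j, rfl⟩
    exact Submodule.mem_map.1 h2
  choose gs hgs hgs' using h1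
  refine ⟨J, gs, hgs, fun w hw g hg => ?_⟩
  have h3 : dv v g ∈ Submodule.span ℂ (Set.range s) := by
    rw [hs]
    exact Submodule.mem_map_of_mem hg
  refine Submodule.span_induction (p := fun f _ => f w = 0) ?_ ?_ ?_ ?_ h3
  · rintro f ⟨j, rfl⟩
    rw [← hgs']
    exact hw j
  · rfl
  · intro f f' _ _ hf hf'
    rw [LinearMap.add_apply, hf, hf', add_zero]
  · intro c f _ hf
    rw [LinearMap.smul_apply, hf, smul_zero]

theorem open_aux {N : ℕ} (v : Fin m → ℂ) (I : Submodule ℂ (MvPolynomial (Fin m) ℂ))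
    (L : (Fin N → ℂ) →L[ℂ] ((Fin m → ℂ) →L[ℂ] (Fin m → ℂ)))
    (hL : ∀ w, (∀ g ∈ I, dv v g w = 0) → ∃ t, L t v = w)
    (hI : ∀ t, ∀ g ∈ I, eval (NormedSpace.exp (L t) v) g = 0) :
    ∀ᶠ z in 𝓝 v, (∀ g ∈ I, eval z g = 0) → ∃ t, z = NormedSpace.exp (L t) v := by
  classical
  obtain ⟨J, gs, hgs, hgs'⟩ := exists_finite_eqs v I
  let T : Submodule ℂ (Fin m → ℂ) := LinearMap.range ((ContinuousLinearMap.apply ℂ
    (Fin m → ℂ) v).toLinearMap ∘ₗ L.toLinearMap)
  obtain ⟨W, hW⟩ := T.exists_isCompl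
  let Ψ : (Fin N → ℂ) × W → (Fin m → ℂ) := fun x => NormedSpace.exp (L x.1) v + (x.2 : Fin m → ℂ)
  let A : (Fin N → ℂ) →L[ℂ] (Fin m → ℂ) := (ContinuousLinearMap.apply ℂ (Fin m → ℂ) v).comp L
  have hΨ0 : Ψ 0 = v := by
    change NormedSpace.exp (L 0) v + ((0 : W) : Fin m → ℂ) = v
    rw [map_zero, NormedSpace.exp_zero, ZeroMemClass.coe_zero, add_zero]
    rfl
  have hexp : HasStrictFDerivAt (fun t : Fin N → ℂ => NormedSpace.exp (L t) v) A 0 := by
    have h1 : HasStrictFDerivAt (NormedSpace.exp : ((Fin m → ℂ) →L[ℂ] (Fin m → ℂ)) →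
        ((Fin m → ℂ) →L[ℂ] (Fin m → ℂ))) (1 : ((Fin m → ℂ) →L[ℂ] (Fin m → ℂ)) →L[ℂ]
          ((Fin m → ℂ) →L[ℂ] (Fin m → ℂ))) (L 0) := by
      rw [map_zero]
      exact hasStrictFDerivAt_exp_zero
    have h2 := h1.comp (0 : Fin N → ℂ) L.hasStrictFDerivAt
    have h3 := ((ContinuousLinearMap.apply ℂ (Fin m → ℂ) v).hasStrictFDerivAt (x := NormedSpace.exp (L 0))).comp (0 : Fin N → ℂ) h2
    exact h3
  have hΨ : HasStrictFDerivAt Ψ (A.comp (ContinuousLinearMap.fst ℂ (Fin N → ℂ) W) +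
      W.subtypeL.comp (ContinuousLinearMap.snd ℂ (Fin N → ℂ) W)) 0 := by
    have h1 : HasStrictFDerivAt (fun x : (Fin N → ℂ) × W => NormedSpace.exp (L x.1) v)
        (A.comp (ContinuousLinearMap.fst ℂ (Fin N → ℂ) W)) 0 := by
      refine HasStrictFDerivAt.comp (0 : (Fin N → ℂ) × W) (f := fun x : (Fin N → ℂ) × W => x.1)
        (g := fun t : Fin N → ℂ => NormedSpace.exp (L t) v) hexp ?_
      exact (ContinuousLinearMap.fst ℂ (Fin N → ℂ) W).hasStrictFDerivAt
    have h2 : HasStrictFDerivAt (fun x : (Fin N → ℂ) × W => (x.2 : Fin m → ℂ))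
        (W.subtypeL.comp (ContinuousLinearMap.snd ℂ (Fin N → ℂ) W)) 0 :=
      (W.subtypeL.comp (ContinuousLinearMap.snd ℂ (Fin N → ℂ) W)).hasStrictFDerivAt
    exact h1.add h2
  have hsurj : (A.comp (ContinuousLinearMap.fst ℂ (Fin N → ℂ) W) +
      W.subtypeL.comp (ContinuousLinearMap.snd ℂ (Fin N → ℂ) W)).range = ⊤ := by
    rw [Submodule.eq_top_iff']
    intro u
    have hu : u ∈ T ⊔ W := by rw [hW.sup_eq_top]; trivial
    obtain ⟨a, ⟨t, rfl⟩, b, hb, rfl⟩ := Submodule.mem_sup.1 hu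
    exact ⟨(t, ⟨b, hb⟩), rfl⟩
  have hmap := hΨ.map_nhds_eq_of_surj hsurj
  rw [hΨ0] at hmap
  rw [← hmap, eventually_map]
  -- the equations
  let G : (Fin m → ℂ) → (Fin J → ℂ) := fun x j => eval x (gs j)
  let G' : (Fin m → ℂ) →L[ℂ] (Fin J → ℂ) := ContinuousLinearMap.pi fun j => dvc v (gs j)
  have hG : HasStrictFDerivAt G G' v := by
    rw [hasStrictFDerivAt_pi]
    intro j
    exact mv_strict (gs j) v
  have hker : LinearMap.ker (G'.comp W.subtypeL).toLinearMap = ⊥ := by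
    rw [LinearMap.ker_eq_bot']
    intro s hs
    have h1 : ∀ j, dv v (gs j) (s : Fin m → ℂ) = 0 := fun j => congrFun hs j
    obtain ⟨t, ht⟩ := hL _ (hgs' _ h1)
    have h2 : (s : Fin m → ℂ) ∈ T ⊓ W := ⟨⟨t, ht⟩, s.2⟩
    rw [hW.inf_eq_bot, Submodule.mem_bot] at h2
    exact Subtype.ext h2
  obtain ⟨K, hK, hanti⟩ := LinearMap.exists_antilipschitzWith _ hker
  have hbound : ∀ s : W, ‖s‖ ≤ K * ‖G' (s : Fin m → ℂ)‖ := fun s =>
    ZeroHomClass.bound_of_antilipschitz _ hanti s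
  have hc : (0 : ℝ) < 1 / (2 * K) := by positivity
  have hev := hG.isLittleO.def hc
  have htend : Tendsto (fun x : (Fin N → ℂ) × W =>
      (Ψ x, NormedSpace.exp (L x.1) v)) (𝓝 0) (𝓝 (v, v)) := by
    have h1 : Tendsto Ψ (𝓝 0) (𝓝 v) := by
      have := hΨ.continuousAt
      rw [ContinuousAt, hΨ0] at this
      exact this
    have h2 : Tendsto (fun x : (Fin N → ℂ) × W => NormedSpace.exp (L x.1) v) (𝓝 0) (𝓝 v) := by
      have h3 : Tendsto (fun t : Fin N → ℂ => NormedSpace.exp (L t) v) (𝓝 0) (𝓝 v) := by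
        have := hexp.continuousAt
        rw [ContinuousAt, map_zero, NormedSpace.exp_zero] at this
        exact this
      exact h3.comp (continuous_fst.tendsto (0 : (Fin N → ℂ) × W))
    exact h1.prodMk_nhds h2
  filter_upwards [htend.eventually hev] with x hx hzero
  have h1 : G (Ψ x) = 0 := by
    ext j
    exact hzero _ (hgs j)
  have h2 : G (NormedSpace.exp (L x.1) v) = 0 := by
    ext j
    exact hI x.1 _ (hgs j)
  have h3 : Ψ x - NormedSpace.exp (L x.1) v = (x.2 : Fin m → ℂ) := add_sub_cancel_left _ _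
  simp only [h1, h2, h3, sub_zero, zero_sub, norm_neg] at hx
  have h4 := hbound x.2
  have h5 : ‖(x.2 : Fin m → ℂ)‖ = ‖x.2‖ := rfl
  rw [h5] at hx
  have h6 : ‖x.2‖ ≤ (1 / 2) * ‖x.2‖ := by
    calc ‖x.2‖ ≤ K * ‖G' (x.2 : Fin m → ℂ)‖ := h4
      _ ≤ K * (1 / (2 * K) * ‖x.2‖) := by gcongr
      _ = (1 / 2) * ‖x.2‖ := by field_simp
  have h7 : ‖x.2‖ = 0 := by
    have := norm_nonneg x.2
    linarith
  have h8 : x.2 = 0 := norm_eq_zero.1 h7
  refine ⟨x.1, ?_⟩
  change NormedSpace.exp (L x.1) v + (x.2 : Fin m → ℂ) = _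
  rw [h8, ZeroMemClass.coe_zero, add_zero]

end

end Vale.Agent.P280.H644
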