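import Vale.Agent.P280.H644.Lift

/-! P280, row R5: tangent vectors of maximal weight extend to vector fields (Theorem I). -/

open DirectSum MvPolynomial

namespace Vale.Agent.P280.H644

variable {R : Type*} [CommRing R] [Algebra ℂ R]
variable {ι : Type*} [DecidableEq ι] [AddCommMonoid ι] (𝒜 : ι → Submodule ℂ R) [GradedAlgebra 𝒜]

/-- The leading part of a derivation along `z` is a derivation along the limit point. -/
theorem isDer_lead {z : R →ₐ[ℂ] ℂ} {α : ι →+ ℤ} (hα : Supp 𝒜 z α) {c : R →ₗ[ℂ] ℂ} (hc : IsDer z c)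
    {k : ℤ} (hk : ∀ i, ∀ h ∈ 𝒜 i, c h ≠ 0 → k ≤ α i) :
    IsDer (lim 𝒜 hα) (tw 𝒜 fun i => if α i = k then c else 0) := by
  refine isDer_of_hom (𝒜 := 𝒜) fun i j f hf g hg => ?_
  have key : ∀ {i j : ι} {f g : R}, f ∈ 𝒜 i → g ∈ 𝒜 j →
      lim 𝒜 hα f * (tw 𝒜 fun i => if α i = k then c else 0) g =
        if α i + α j = k then z f * c g else 0 := by
    intro i j f g hf hg
    rw [lim_mem 𝒜 hα hf, tw_mem 𝒜 _ hg]
    by_cases h1 : z f = 0
    · split_ifs <;> simp [h1]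
    by_cases h2 : c g = 0
    · split_ifs <;> simp [h2]
    have h3 := hα i f hf h1
    have h4 := hk j g hg h2
    by_cases h5 : α i = 0
    · by_cases h6 : α j = k
      · simp [h5, h6]
      · have h7 : ¬ (α i + α j = k) := by omega
        rw [if_neg h6, if_neg h7]; simp
    · have h7 : ¬ (α i + α j = k) := by omega
      rw [if_neg h5, if_neg h7]; simp
  rw [key hf hg, key hg hf, tw_mem 𝒜 _ (SetLike.mul_mem_graded hf hg), map_add, add_comm (α j)]
  split_ifs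
  · exact hc f g
  · simp

variable (deg : ι →+ ℕ) (wt : ι →+ ℤ)

/-- `wt - μ deg`. -/
def slope (μ : ℤ) : ι →+ ℤ := wt - μ • (Nat.castAddMonoidHom ℤ).comp deg

@[simp] theorem slope_apply (μ : ℤ) (i : ι) : slope deg wt μ i = wt i - μ * deg i := by
  simp [slope]

/-- The sum of the pieces of degree `d` and weight `m`. -/
def Pc (d : ℕ) (m : ℤ) : Submodule ℂ R := ⨆ (i : ι) (_ : deg i = d ∧ wt i = m), 𝒜 i

/-- `v` has weight `w` at a fixed point of slope `μ`. -/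
def HasWt (μ w : ℤ) (v : R →ₗ[ℂ] ℂ) : Prop := ∀ i, ∀ h ∈ 𝒜 i, v h ≠ 0 → wt i = μ * deg i + w

/-- The derivation `D` of `R` has degree `0` and weight `-a`. -/
def DerWt (a : ℤ) (D : Derivation ℂ R R) : Prop :=
  ∀ i, ∀ h ∈ 𝒜 i, D h ∈ Pc 𝒜 deg wt (deg i) (wt i - a)

/-- At the fixed point `x` of slope `μ` all weights are at most `a` and all tangent vectors of
weight `a` are values of derivations of `R` of degree `0` and weight `-a`. -/
structure Good (x : R →ₐ[ℂ] ℂ) (μ a : ℤ) : Prop where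
  le : ∀ w, a < w → ∀ v : R →ₗ[ℂ] ℂ, IsDer x v → HasWt 𝒜 deg wt μ w v → v = 0
  ext : ∀ v : R →ₗ[ℂ] ℂ, IsDer x v → HasWt 𝒜 deg wt μ a v →
    ∃ D : Derivation ℂ R R, DerWt 𝒜 deg wt a D ∧ ∀ h, x (D h) = v h

/-- All rational curves are free: for every homogeneous homomorphism `φ : R → ℂ[s,t]` without base
points every tangent vector of the cone at a point of the curve extends to a homogeneous
derivation along `φ`. -/
def FreeCurves : Prop :=
  ∀ (e : ℕ) (φ : R →ₐ[ℂ] MvPolynomial (Fin 2) ℂ),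
    (∀ i, ∀ h ∈ 𝒜 i, (φ h).IsHomogeneous (deg i * e)) →
    (∀ p : Fin 2 → ℂ, p ≠ 0 → ∃ i, 0 < deg i ∧ ∃ h ∈ 𝒜 i, MvPolynomial.aeval p (φ h) ≠ 0) →
    ∀ p : Fin 2 → ℂ, p ≠ 0 → ∀ v : R →ₗ[ℂ] ℂ, IsDer ((MvPolynomial.aeval p).comp φ) v →
    ∃ δ : R →ₗ[ℂ] MvPolynomial (Fin 2) ℂ, IsDer φ δ ∧
      (∀ i, ∀ h ∈ 𝒜 i, (δ h).IsHomogeneous (deg i * e)) ∧
      ∀ h, MvPolynomial.aeval p (δ h) = v h

variable {deg wt}

theorem lim_Pc {z : R →ₐ[ℂ] ℂ} {α : ι →+ ℤ} (hα : Supp 𝒜 z α) {d : ℕ} {m n : ℤ}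
    (hn : ∀ i, deg i = d → wt i = m → α i = n) {f : R} (hf : f ∈ Pc 𝒜 deg wt d m) :
    lim 𝒜 hα f = if n = 0 then z f else 0 := by
  refine Submodule.iSup_induction' _ (motive := fun f _ => lim 𝒜 hα f = if n = 0 then z f else 0)
    ?_ ?_ ?_ hf
  · intro i x hx
    by_cases h : deg i = d ∧ wt i = m
    · rw [iSup_pos h] at hx
      rw [lim_mem 𝒜 hα hx, hn i h.1 h.2]
    · rw [iSup_neg h] at hx
      rw [(Submodule.mem_bot ℂ).1 hx]
      split_ifs <;> simp
  · split_ifs <;> simp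
  · intro x y _ _ hx hy
    rw [map_add, hx, hy]
    split_ifs <;> simp

theorem supp_Pc {z : R →ₐ[ℂ] ℂ} {α : ι →+ ℤ} (hα : Supp 𝒜 z α) {d : ℕ} {m n : ℤ}
    (hn : ∀ i, deg i = d → wt i = m → α i = n) {f : R} (hf : f ∈ Pc 𝒜 deg wt d m) (h0 : z f ≠ 0) :
    0 ≤ n := by
  by_contra hneg
  apply h0
  refine Submodule.iSup_induction' _ (motive := fun f _ => z f = 0) ?_ ?_ ?_ hf
  · intro i x hx
    by_cases h : deg i = d ∧ wt i = m
    · rw [iSup_pos h] at hx
      by_contra h1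
      have := hα i x hx h1
      rw [hn i h.1 h.2] at this
      omega
    · rw [iSup_neg h] at hx
      rw [(Submodule.mem_bot ℂ).1 hx, map_zero]
  · simp
  · intro x y _ _ hx hy
    rw [map_add, hx, hy, add_zero]

/-- Leading parts: a derivation along `z` which lives in `α ≥ w`, `w > a`, is zero if all weights
at the limit point are at most `a`. -/
theorem eq_zero_of_lead {z : R →ₐ[ℂ] ℂ} {μ : ℤ} (hα : Supp 𝒜 z (slope deg wt μ)) {a : ℤ}
    (hle : ∀ w, a < w → ∀ v : R →ₗ[ℂ] ℂ, IsDer (lim 𝒜 hα) v → HasWt 𝒜 deg wt μ w v → v = 0)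
    {c : R →ₗ[ℂ] ℂ} (hc : IsDer z c) {w : ℤ} (haw : a < w)
    (hw : ∀ i, ∀ h ∈ 𝒜 i, c h ≠ 0 → w ≤ slope deg wt μ i) : c = 0 := by
  by_contra hne
  have hex : ∃ k : ℤ, ∃ i, ∃ h ∈ 𝒜 i, c h ≠ 0 ∧ slope deg wt μ i = k := by
    by_contra hcon
    apply hne
    apply ext_hom (𝒜 := 𝒜)
    intro i h hh
    by_contra h1
    exact hcon ⟨_, i, h, hh, h1, rfl⟩
  obtain ⟨k, ⟨i0, h0, hh0, hc0, hk0⟩, hmin⟩ := Int.exists_least_of_bdd
    (P := fun k => ∃ i, ∃ h ∈ 𝒜 i, c h ≠ 0 ∧ slope deg wt μ i = k)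
    ⟨w, fun k ⟨i, h, hh, h1, h2⟩ => h2 ▸ hw i h hh h1⟩ hex
  have hk : ∀ i, ∀ h ∈ 𝒜 i, c h ≠ 0 → k ≤ slope deg wt μ i := fun i h hh h1 =>
    hmin _ ⟨i, h, hh, h1, rfl⟩
  have h1 := hle k (by
    have := hw i0 h0 hh0 hc0
    omega) _ (isDer_lead 𝒜 hα hc hk) (by
    intro i h hh h1
    rw [tw_mem 𝒜 _ hh] at h1
    by_cases h2 : slope deg wt μ i = k
    · rw [slope_apply] at h2
      linarith
    · rw [if_neg h2] at h1
      simp at h1)
  have h2 := LinearMap.congr_fun h1 h0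
  rw [tw_mem 𝒜 _ hh0, if_pos hk0] at h2
  exact hc0 (by simpa using h2)

/-- Lifting of a tangent vector of weight `w` at the highest limit `x` of `z` to a derivation
along `z`. -/
theorem exists_lift (hfree : FreeCurves 𝒜 deg) {z : R →ₐ[ℂ] ℂ} {μ ν : ℤ} (hμν : μ ≤ ν)
    (hα : Supp 𝒜 z (slope deg wt μ)) (hβ : Supp 𝒜 z (-slope deg wt ν))
    (h1 : ∃ i, 0 < deg i ∧ slope deg wt μ i = 0 ∧ ∃ h ∈ 𝒜 i, z h ≠ 0)
    (h2 : ∃ i, 0 < deg i ∧ slope deg wt ν i = 0 ∧ ∃ h ∈ 𝒜 i, z h ≠ 0)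
    {w : ℤ} {v : R →ₗ[ℂ] ℂ} (hv : IsDer (lim 𝒜 hβ) v) (hvw : HasWt 𝒜 deg wt ν w v) :
    ∃ c : R →ₗ[ℂ] ℂ, IsDer z c ∧ (∀ i, ∀ h ∈ 𝒜 i, c h ≠ 0 → w ≤ slope deg wt μ i) ∧
      ∀ i, ∀ h ∈ 𝒜 i, wt i = ν * deg i + w → c h = v h := by
  have hsum : ∀ i, slope deg wt μ i + (-slope deg wt ν) i = ((deg i * (ν - μ).toNat : ℕ) : ℤ) := by
    intro i
    rw [AddMonoidHom.neg_apply, slope_apply, slope_apply, Nat.cast_mul, Int.toNat_of_nonneg
      (by omega)]
    ring
  have hp : (![1, 0] : Fin 2 → ℂ) ≠ 0 := by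
    intro h
    simpa using congr_fun h 0
  obtain ⟨δ, hδ, hδh, hδv⟩ := hfree (ν - μ).toNat (curve 𝒜 hα hβ)
    (fun i h hh => isHomogeneous_curve 𝒜 hα hβ hh (hsum i)) (by
      intro p hp
      by_cases hp0 : p 0 = 0
      · have hp1 : p 1 ≠ 0 := by
          intro hp1
          apply hp
          ext i
          fin_cases i
          · exact hp0
          · exact hp1
        obtain ⟨i, hi, hsi, h, hh, hz⟩ := h1
        refine ⟨i, hi, h, hh, ?_⟩
        rw [curve_mem 𝒜 hα hβ hh, MvPolynomial.aeval_monomial, hsi]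
        simp [ex, Finsupp.prod_fintype, Fin.prod_univ_two, hz, hp1]
      · obtain ⟨i, hi, hsi, h, hh, hz⟩ := h2
        refine ⟨i, hi, h, hh, ?_⟩
        rw [curve_mem 𝒜 hα hβ hh, MvPolynomial.aeval_monomial, AddMonoidHom.neg_apply, hsi]
        simp [ex, Finsupp.prod_fintype, Fin.prod_univ_two, hz, hp0])
    ![1, 0] hp v (by
      intro f g
      rw [AlgHom.comp_apply, AlgHom.comp_apply, curve_one_zero, curve_one_zero]
      exact hv f g)
  refine ⟨comp 𝒜 (slope deg wt μ) (-slope deg wt ν) w δ, isDer_comp 𝒜 hα hβ w hδ, ?_, ?_⟩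
  · intro i h hh hc
    rw [comp_mem 𝒜 _ _ _ _ hh] at hc
    by_contra hcon
    rw [if_neg (by omega)] at hc
    exact hc rfl
  · intro i h hh hi
    have h3 : (-slope deg wt ν) i + w = 0 := by
      rw [AddMonoidHom.neg_apply, slope_apply]
      linarith
    have h4 := hsum i
    rw [comp_mem 𝒜 _ _ _ _ hh, if_pos ⟨by omega, by omega⟩, ← hδv h, aeval_ex (hδh i h hh)]
    congr 2
    · omega
    · omega

/-- The step: from the lowest limit to the highest limit of `z`. -/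
theorem good_step (hfree : FreeCurves 𝒜 deg) {z : R →ₐ[ℂ] ℂ} {μ ν a : ℤ} (hμν : μ ≤ ν)
    (hα : Supp 𝒜 z (slope deg wt μ)) (hβ : Supp 𝒜 z (-slope deg wt ν))
    (h1 : ∃ i, 0 < deg i ∧ slope deg wt μ i = 0 ∧ ∃ h ∈ 𝒜 i, z h ≠ 0)
    (h2 : ∃ i, 0 < deg i ∧ slope deg wt ν i = 0 ∧ ∃ h ∈ 𝒜 i, z h ≠ 0)
    (hy : Good 𝒜 deg wt (lim 𝒜 hα) μ a) : Good 𝒜 deg wt (lim 𝒜 hβ) ν a := by
  constructor
  · intro w haw v hv hvw
    obtain ⟨c, hc, hcw, hcv⟩ := exists_lift 𝒜 hfree hμν hα hβ h1 h2 hv hvw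
    have hc0 := eq_zero_of_lead 𝒜 hα hy.le hc haw hcw
    apply ext_hom (𝒜 := 𝒜)
    intro i h hh
    by_contra hne
    apply hne
    rw [← hcv i h hh (hvw i h hh (by simpa using hne)), hc0]
  · intro v hv hvw
    obtain ⟨c, hc, hcw, hcv⟩ := exists_lift 𝒜 hfree hμν hα hβ h1 h2 hv hvw
    obtain ⟨D, hD, hDc⟩ := hy.ext _ (isDer_lead 𝒜 hα hc hcw) (by
      intro i h hh h3
      rw [tw_mem 𝒜 _ hh] at h3
      by_cases h4 : slope deg wt μ i = a
      · rw [slope_apply] at h4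
        linarith
      · rw [if_neg h4] at h3
        simp at h3)
    have hDα : ∀ i j, deg j = deg i → wt j = wt i - a →
        slope deg wt μ j = slope deg wt μ i - a := by
      intro i j h3 h4
      rw [slope_apply, slope_apply, h3, h4]
      ring
    have hDβ : ∀ i j, deg j = deg i → wt j = wt i - a →
        (-slope deg wt ν) j = (-slope deg wt ν) i + a := by
      intro i j h3 h4
      rw [AddMonoidHom.neg_apply, AddMonoidHom.neg_apply, slope_apply, slope_apply, h3, h4]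
      ring
    have hzD : c - z.toLinearMap.comp (D : R →ₗ[ℂ] R) = 0 := by
      apply eq_zero_of_lead 𝒜 hα hy.le (w := a + 1) (a := a)
      · intro f g
        simp only [LinearMap.sub_apply, LinearMap.comp_apply, AlgHom.toLinearMap_apply,
          Derivation.coeFn_coe, Derivation.leibniz, smul_eq_mul,
          map_add, map_mul, hc f g]
        ring
      · omega
      · intro i h hh h3
        simp only [LinearMap.sub_apply, LinearMap.comp_apply, AlgHom.toLinearMap_apply,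
          Derivation.coeFn_coe] at h3
        have h4 : a ≤ slope deg wt μ i := by
          by_cases h5 : c h = 0
          · rw [h5, zero_sub, neg_ne_zero] at h3
            have := supp_Pc 𝒜 hα (hDα i) (hD i h hh) h3
            omega
          · exact hcw i h hh h5
        by_contra h5
        have h6 : slope deg wt μ i = a := by omega
        apply h3
        have h7 := hDc h
        rw [tw_mem 𝒜 _ hh, if_pos h6, lim_Pc 𝒜 hα (hDα i) (hD i h hh), if_pos (by omega)] at h7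
        rw [h7, sub_self]
    refine ⟨D, hD, fun h => ?_⟩
    have := ext_hom (𝒜 := 𝒜) (f := (lim 𝒜 hβ).toLinearMap.comp (D : R →ₗ[ℂ] R)) (g := v) ?_
    · exact LinearMap.congr_fun this h
    intro i h hh
    simp only [LinearMap.comp_apply, AlgHom.toLinearMap_apply,       Derivation.coeFn_coe]
    rw [lim_Pc 𝒜 hβ (hDβ i) (hD i h hh)]
    by_cases h3 : (-slope deg wt ν) i + a = 0
    · rw [if_pos h3, ← hcv i h hh (by
        rw [AddMonoidHom.neg_apply, slope_apply] at h3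
        linarith)]
      have := LinearMap.congr_fun hzD h
      simp only [LinearMap.sub_apply, LinearMap.comp_apply, AlgHom.toLinearMap_apply,
        Derivation.coeFn_coe, LinearMap.zero_apply] at this
      exact (sub_eq_zero.1 this).symm
    · rw [if_neg h3]
      by_contra h4
      apply h3
      have := hvw i h hh (Ne.symm h4)
      rw [AddMonoidHom.neg_apply, slope_apply]
      linarith

end Vale.Agent.P280.H644
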