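import Vale.Agent.P280.H644.XDefs
import Vale.Agent.P280.H939.OrbB
import Vale.Agent.P280.H127.LowerBound

/-!
# P280, homotheties at an isolated fixed point: row B, (X2)

Every point of the cone is the image of its lowest limit under the flow of a field of weight `a`.
-/

namespace Vale.Agent.P280.X

open Vale.Agent.P280.T Vale.Agent.P280.H939

section
variable {R : Type} [CommRing R] [Algebra ℂ R]
variable {𝒜 : ℕ × ℤ → Submodule ℂ R} [GradedAlgebra 𝒜] {a ν0 : ℤ} {z x0 : R →ₐ[ℂ] ℂ}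

/-- `x0` is the lowest limit of `z`. -/
structure IsLow (𝒜 : ℕ × ℤ → Submodule ℂ R) (z x0 : R →ₐ[ℂ] ℂ) (ν0 : ℤ) : Prop where
  ver : ¬ IsVertex 𝒜 x0
  fix : IsFixed 𝒜 x0 ν0
  low : ∀ (d : ℕ) (m : ℤ), m < (d : ℤ) * ν0 → ∀ h ∈ 𝒜 (d, m), z h = 0
  eq : ∀ (d : ℕ), ∀ h ∈ 𝒜 (d, (d : ℤ) * ν0), z h = x0 h

theorem exists_low (hX : IsTorusManifold 𝒜) (hz : ¬ IsVertex 𝒜 z) :
    ∃ (x0 : R →ₐ[ℂ] ℂ) (ν0 : ℤ), IsLow 𝒜 z x0 ν0 := by
  obtain ⟨ν, hα, -, h1, h2⟩ := H127.exists_lower hX hz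
  refine ⟨_, ν, h1, h2, ?_, ?_⟩
  · intro d m hm h hh
    by_contra hne
    have h3 := hα (d, m) h hh hne
    rw [H644.slope_apply] at h3
    simp only [AddMonoidHom.coe_fst, AddMonoidHom.coe_snd] at h3
    linarith
  · intro d h hh
    rw [H644.lim_mem 𝒜 hα hh, if_pos]
    rw [H644.slope_apply]
    simp only [AddMonoidHom.coe_fst, AddMonoidHom.coe_snd]
    ring

/-- The leading part of `z` is a tangent vector at its lowest limit. -/
theorem leading (H : IsLow 𝒜 z x0 ν0) {k : ℤ} (hk : 0 < k) (hz : NK 𝒜 ν0 z k) :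
    ∃ v : R →ₗ[ℂ] ℂ, IsTangent x0 v ∧ HasWeight 𝒜 ν0 k v ∧
      ∀ (d : ℕ) (m : ℤ), m - (d : ℤ) * ν0 = k → ∀ h ∈ 𝒜 (d, m), v h = z h := by
  obtain ⟨v, hv⟩ := H587.exists_linearMap 𝒜
    (fun i : ℕ × ℤ => if i.2 - (i.1 : ℤ) * ν0 = k then z.toLinearMap else 0)
  have hv1 : ∀ (d : ℕ) (m : ℤ), m - (d : ℤ) * ν0 = k → ∀ h ∈ 𝒜 (d, m), v h = z h := by
    intro d m hm h hh
    rw [hv _ h hh, if_pos hm]
    rfl
  have hv0 : ∀ (d : ℕ) (m : ℤ), m - (d : ℤ) * ν0 ≠ k → ∀ h ∈ 𝒜 (d, m), v h = 0 := by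
    intro d m hm h hh
    rw [hv _ h hh, if_neg hm]
    rfl
  have hp0 : ∀ (d : ℕ) (m : ℤ), m - (d : ℤ) * ν0 ≠ 0 → ∀ h ∈ 𝒜 (d, m), x0 h = 0 := by
    intro d m hm h hh
    by_contra hne
    have h1 := H.fix d m h hh hne
    rw [nsmul_eq_mul] at h1
    exact hm (by linarith)
  have hneg : ∀ (d : ℕ) (m : ℤ), m - (d : ℤ) * ν0 < 0 → ∀ h ∈ 𝒜 (d, m), z h = 0 :=
    fun d m hm h hh => H.low d m (by linarith) h hh
  have hz0 : ∀ (d : ℕ) (m : ℤ), m - (d : ℤ) * ν0 = 0 → ∀ h ∈ 𝒜 (d, m), z h = x0 h := by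
    intro d m hm h hh
    have hm' : m = (d : ℤ) * ν0 := by linarith
    subst hm'
    exact H.eq d h hh
  refine ⟨v, ?_, ?_, hv1⟩
  · intro x y
    let F1 : R →ₗ[ℂ] R →ₗ[ℂ] ℂ := (LinearMap.mul ℂ R).compr₂ v
    let G : R →ₗ[ℂ] R →ₗ[ℂ] ℂ :=
      (LinearMap.mul ℂ ℂ).compl₁₂ x0.toLinearMap v +
        ((LinearMap.mul ℂ ℂ).compl₁₂ x0.toLinearMap v).flip
    have hFG : F1 x y = G x y := by
      refine H587.bilin_ext 𝒜 (F := F1) (G := G) ?_ x y
      rintro ⟨d, m⟩ ⟨e, n⟩ x hx y hy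
      change v (x * y) = x0 x * v y + x0 y * v x
      have hxy : x * y ∈ 𝒜 (d + e, m + n) := SetLike.mul_mem_graded hx hy
      have hadd : (m + n) - ((d + e : ℕ) : ℤ) * ν0 = (m - (d : ℤ) * ν0) + (n - (e : ℤ) * ν0) := by
        push_cast; ring
      by_cases hk' : (m - (d : ℤ) * ν0) + (n - (e : ℤ) * ν0) = k
      · rw [hv1 _ _ (by rw [hadd]; exact hk') _ hxy, map_mul]
        rcases lt_trichotomy (m - (d : ℤ) * ν0) 0 with hx0 | hx0 | hx0
        · rw [hneg d m hx0 x hx, hp0 d m (by omega) x hx, hp0 e n (by omega) y hy]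
          ring
        · rw [hz0 d m hx0 x hx, hv1 e n (by omega) y hy, hp0 e n (by omega) y hy]
          ring
        rcases lt_trichotomy (n - (e : ℤ) * ν0) 0 with hy0 | hy0 | hy0
        · rw [hneg e n hy0 y hy, hp0 d m (by omega) x hx, hp0 e n (by omega) y hy]
          ring
        · rw [hz0 e n hy0 y hy, hv1 d m (by omega) x hx, hp0 d m (by omega) x hx]
          ring
        · rw [hz d m hx0 (by omega) x hx, hp0 d m (by omega) x hx, hp0 e n (by omega) y hy]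
          ring
      · rw [hv0 _ _ (by rw [hadd]; exact hk') _ hxy]
        have h1 : x0 x * v y = 0 := by
          by_cases hx1 : m - (d : ℤ) * ν0 = 0
          · rw [hv0 e n (by omega) y hy, mul_zero]
          · rw [hp0 d m hx1 x hx, zero_mul]
        have h2 : x0 y * v x = 0 := by
          by_cases hy1 : n - (e : ℤ) * ν0 = 0
          · rw [hv0 d m (by omega) x hx, mul_zero]
          · rw [hp0 e n hy1 y hy, zero_mul]
        rw [h1, h2, add_zero]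
    exact hFG
  · intro d m h hh hne
    by_contra hcon
    apply hne
    apply hv0 d m _ h hh
    intro h1
    apply hcon
    rw [nsmul_eq_mul]
    linarith

/-- Tangent vectors whose weight is not `-a, 0, a` vanish. -/
theorem eq_zero_of_wt (S : Setup 𝒜 a) (hx : ¬ IsVertex 𝒜 x0) (hx' : IsFixed 𝒜 x0 ν0) {k : ℤ}
    (h1 : k ≠ -a) (h2 : k ≠ 0) (h3 : k ≠ a) {v : R →ₗ[ℂ] ℂ} (hv : IsTangent x0 v)
    (hw : HasWeight 𝒜 ν0 k v) : v = 0 := by
  by_contra hne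
  have h4 := T.tangentWeight_of_ne hx' h2 hv hw hne
  rcases S.wt x0 ν0 k hx hx' h4 with h | h | h
  · exact h1 h
  · exact h2 h
  · exact h3 h

theorem nk_step (S : Setup 𝒜 a) (H : IsLow 𝒜 z x0 ν0) {k : ℤ} (hk : 0 < k) (hka : k ≠ a)
    (hz : NK 𝒜 ν0 z k) : NK 𝒜 ν0 z (k + 1) := by
  have ha := S.ha
  obtain ⟨v, hv, hvw, hv1⟩ := leading H hk hz
  have h0 := eq_zero_of_wt S H.ver H.fix (by omega) (by omega) hka hv hvw
  intro d m h1 h2 h hh
  rcases lt_or_ge (m - (d : ℤ) * ν0) k with h3 | h3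
  · exact hz d m h1 h3 h hh
  · rw [← hv1 d m (by omega) h hh, h0, LinearMap.zero_apply]

theorem nk_below (S : Setup 𝒜 a) (H : IsLow 𝒜 z x0 ν0) : NK 𝒜 ν0 z a := by
  have key : ∀ n : ℕ, (n : ℤ) ≤ a → NK 𝒜 ν0 z n := by
    intro n
    induction n with
    | zero =>
      intro _ d m h1 h2
      push_cast at h2
      omega
    | succ n ih =>
      intro hn
      push_cast at hn ⊢
      by_cases h0 : n = 0
      · subst h0
        intro d m h1 h2
        push_cast at h2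
        omega
      · exact nk_step S H (by omega) (by omega) (ih (by omega))
  have ha := S.ha
  have h1 := key a.toNat (by omega)
  rwa [Int.toNat_of_nonneg ha.le] at h1

theorem nk_above (S : Setup 𝒜 a) (H : IsLow 𝒜 z x0 ν0) (hz : NK 𝒜 ν0 z (a + 1)) (n : ℕ) :
    NK 𝒜 ν0 z (a + 1 + n) := by
  have ha := S.ha
  induction n with
  | zero =>
    push_cast
    rw [add_zero]
    exact hz
  | succ n ih =>
    push_cast
    rw [← add_assoc]
    exact nk_step S H (by omega) (by omega) ih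

omit [GradedAlgebra 𝒜] in
/-- `z` on the exponential in low weights. -/
theorem exp_low {E : R →ₗ[ℂ] R} (ha : 0 < a)
    (hE : ∀ (d : ℕ) (m : ℤ), ∀ h ∈ 𝒜 (d, m), E h ∈ 𝒜 (d, m - a))
    (hlow : ∀ (d : ℕ) (m : ℤ), m < (d : ℤ) * ν0 → ∀ h ∈ 𝒜 (d, m), z h = 0) {d : ℕ} {m : ℤ}
    {h y : R} (hh : h ∈ 𝒜 (d, m)) (hm : m - (d : ℤ) * ν0 < 2 * a) (hy : IsExpAt E h y) :
    z y = z h + z (E h) := by
  have hit : ∀ k : ℕ, (⇑E)^[k] h ∈ 𝒜 (d, m - k * a) := by
    intro k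
    induction k with
    | zero => simpa using hh
    | succ k ih =>
      rw [Function.iterate_succ_apply']
      have h1 := hE d _ _ ih
      have e : m - (k : ℤ) * a - a = m - ((k + 1 : ℕ) : ℤ) * a := by push_cast; ring
      rwa [e] at h1
  have h1 : ∀ k : ℕ, k ∉ Finset.range 2 → ((k.factorial : ℂ))⁻¹ * z.toLinearMap ((⇑E)^[k] h) =
      0 := by
    intro k hk
    rw [Finset.mem_range, not_lt] at hk
    have h2 : z ((⇑E)^[k] h) = 0 := by
      refine hlow d _ ?_ _ (hit k)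
      have h3 : (2 : ℤ) * a ≤ k * a := by
        have : (2 : ℤ) ≤ k := by exact_mod_cast hk
        nlinarith
      linarith
    change _ * z ((⇑E)^[k] h) = 0
    rw [h2, mul_zero]
  have h2 : HasSum (fun k : ℕ => ((k.factorial : ℂ))⁻¹ * z.toLinearMap ((⇑E)^[k] h))
      (∑ k ∈ Finset.range 2, ((k.factorial : ℂ))⁻¹ * z.toLinearMap ((⇑E)^[k] h)) :=
    hasSum_sum_of_ne_finset_zero h1
  rw [Finset.sum_range_succ, Finset.sum_range_one] at h2
  simp only [Nat.factorial_zero, Nat.cast_one, inv_one, one_mul, Nat.factorial_one,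
    Function.iterate_zero, id_eq, Function.iterate_one] at h2
  exact (hy z.toLinearMap).unique h2

omit [GradedAlgebra 𝒜] in
theorem isField_of_wt {D : Derivation ℂ R R}
    (hD : ∀ (d : ℕ) (m : ℤ), ∀ h ∈ 𝒜 (d, m), D h ∈ 𝒜 (d, m - a)) : IsField 𝒜 D :=
  fun d m h hh => (le_iSup (fun m : ℤ => 𝒜 (d, m)) (m - a)) (hD d m h hh)

/-- (X2) -/
theorem x2 (S : Setup 𝒜 a) (H : IsLow 𝒜 z x0 ν0) :
    ∃ (D : Derivation ℂ R R) (F : R ≃ₐ[ℂ] R),
      (∀ (d : ℕ) (m : ℤ), ∀ h ∈ 𝒜 (d, m), D h ∈ 𝒜 (d, m - a)) ∧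
      (∀ h, IsExpAt (D : R →ₗ[ℂ] R) h (F h)) ∧
      (∀ h, IsExpAt (-(D : R →ₗ[ℂ] R)) h (F.symm h)) ∧ ∀ h, z h = x0 (F h) := by
  have ha := S.ha
  obtain ⟨v, hv, hvw, hv1⟩ := leading H ha (nk_below S H)
  obtain ⟨D, hD, hDv⟩ := S.fld x0 ν0 v H.ver H.fix hv hvw
  obtain ⟨F, hF, hF'⟩ := exists_exp (locFin_of_field (finite_deg S.hX) (isField_of_wt hD))
  refine ⟨D, F, hD, hF, hF', ?_⟩
  have hneg : ∀ (d : ℕ) (m : ℤ), ∀ h ∈ 𝒜 (d, m), (-(D : R →ₗ[ℂ] R)) h ∈ 𝒜 (d, m - a) :=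
    fun d m h hh => Submodule.neg_mem _ (hD d m h hh)
  have hx0 : ∀ (d : ℕ) (m : ℤ), m ≠ (d : ℤ) * ν0 → ∀ h ∈ 𝒜 (d, m), x0 h = 0 := by
    intro d m hm h hh
    by_contra hne
    have h1 := H.fix d m h hh hne
    rw [nsmul_eq_mul] at h1
    exact hm h1
  -- the moved point
  have h1 : ∀ (d : ℕ) (m : ℤ), m - (d : ℤ) * ν0 < 2 * a → ∀ h ∈ 𝒜 (d, m),
      z (F.symm h) = z h - z (D h) := by
    intro d m hm h hh
    rw [exp_low ha hneg H.low hh hm (hF' h)]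
    change z h + z (-(D h)) = _
    rw [map_neg]
    ring
  have h2 : ∀ (d : ℕ) (m : ℤ), m - (d : ℤ) * ν0 < a → ∀ h ∈ 𝒜 (d, m), z (F.symm h) = z h := by
    intro d m hm h hh
    rw [h1 d m (by linarith) h hh, H.low d (m - a) (by linarith) _ (hD d m h hh), sub_zero]
  let z' : R →ₐ[ℂ] ℂ := z.comp (F.symm : R →ₐ[ℂ] R)
  have H' : IsLow 𝒜 z' x0 ν0 := ⟨H.ver, H.fix, fun d m hm h hh => by
      change z (F.symm h) = 0
      rw [h2 d m (by linarith) h hh, H.low d m hm h hh], fun d h hh => by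
      change z (F.symm h) = x0 h
      rw [h2 d _ (by linarith) h hh, H.eq d h hh]⟩
  have h3 : NK 𝒜 ν0 z' (a + 1) := by
    intro d m hm1 hm2 h hh
    change z (F.symm h) = 0
    rcases lt_or_ge (m - (d : ℤ) * ν0) a with hm | hm
    · rw [h2 d m hm h hh]
      exact nk_below S H d m hm1 hm h hh
    · have hma : m - (d : ℤ) * ν0 = a := by omega
      have hDh := hD d m h hh
      have e : m - a = (d : ℤ) * ν0 := by linarith
      rw [e] at hDh
      rw [h1 d m (by linarith) h hh, H.eq d _ hDh, hDv, hv1 d m hma h hh, sub_self]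
  have h4 : z' = x0 := by
    refine algHom_ext_graded 𝒜 ?_
    rintro ⟨d, m⟩ h hh
    rcases lt_trichotomy m ((d : ℤ) * ν0) with hm | hm | hm
    · rw [H'.low d m hm h hh, hx0 d m (by omega) h hh]
    · subst hm
      exact H'.eq d h hh
    · rw [hx0 d m (by omega) h hh]
      have h5 := nk_above S H' h3 (m - (d : ℤ) * ν0).toNat
      refine h5 d m (by linarith) ?_ h hh
      rw [Int.toNat_of_nonneg (by linarith)]
      linarith
  intro h
  have h5 := DFunLike.congr_fun h4 (F h)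
  change z (F.symm (F h)) = x0 (F h) at h5
  rwa [AlgEquiv.symm_apply_apply] at h5

end

end Vale.Agent.P280.X
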