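import Vale.Agent.P280.T.Defs

/-!
# P280, homotheties at an isolated fixed point: common definitions
-/

namespace Vale.Agent.P280.X

open Vale.Agent.P280.T

variable {R : Type} [CommRing R] [Algebra ℂ R]

/-- The situation after Theorem I: the tangent weights at the fixed points are `-a, 0, a`, and the
tangent vectors of weight `a` are values of global fields of weight `a`. -/
structure Setup (𝒜 : ℕ × ℤ → Submodule ℂ R) (a : ℤ) : Prop where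
  hX : IsTorusManifold 𝒜
  hN : NefOnRationalCurves 𝒜
  ha : 0 < a
  wt : ∀ (x : R →ₐ[ℂ] ℂ) (ν χ : ℤ), ¬ IsVertex 𝒜 x → IsFixed 𝒜 x ν → TangentWeight 𝒜 x ν χ →
    χ = -a ∨ χ = 0 ∨ χ = a
  fld : ∀ (x : R →ₐ[ℂ] ℂ) (ν : ℤ) (v : R →ₗ[ℂ] ℂ), ¬ IsVertex 𝒜 x → IsFixed 𝒜 x ν →
    IsTangent x v → HasWeight 𝒜 ν a v → ∃ D : Derivation ℂ R R,
      (∀ (d : ℕ) (m : ℤ), ∀ h ∈ 𝒜 (d, m), D h ∈ 𝒜 (d, m - a)) ∧ ∀ h, x (D h) = v h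

/-- `Y` is the restriction to the minus cell of the fixed point `x` (with character `ν`). -/
structure MCell (𝒜 : ℕ × ℤ → Submodule ℂ R) (a : ℤ) (x : R →ₐ[ℂ] ℂ) (ν : ℤ) (s : ℕ)
    (Y : R →ₐ[ℂ] MvPolynomial (Fin s) ℂ) : Prop where
  surj : Function.Surjective Y
  top : ∀ (d : ℕ) (m : ℤ), (d : ℤ) * ν < m → ∀ h ∈ 𝒜 (d, m), Y h = 0
  diag : ∀ d : ℕ, ∀ h ∈ 𝒜 (d, (d : ℤ) * ν), Y h = MvPolynomial.C (x h)
  homog : ∀ (d k : ℕ), ∀ h ∈ 𝒜 (d, (d : ℤ) * ν - (k : ℤ) * a), (Y h).IsHomogeneous k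
  ker : RingHom.ker Y = Ideal.span ({h | ∃ (d : ℕ) (m : ℤ), (d : ℤ) * ν < m ∧ h ∈ 𝒜 (d, m)} ∪
    {g | ∃ d : ℕ, ∃ h ∈ 𝒜 (d, (d : ℤ) * ν), g = h - algebraMap ℂ R (x h)})

end Vale.Agent.P280.X
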